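import Vale.Agent.P015.Moat.Sieve

/-!
Almost every Gaussian prime is cut off by a moat of width `D` within distance `log X`.
-/

open Finset Filter
open GaussianInt (toComplex)

noncomputable section

namespace Vale.Agent.P015.Moat

attribute [local instance] Classical.propDecidable

/-- The graph of Gaussian primes with steps at most `D`. -/
abbrev stepGraph (D : ℝ) : SimpleGraph GaussianInt :=
  SimpleGraph.fromRel fun a b : GaussianInt => Prime a ∧ Prime b ∧ ‖(a : ℂ) - (b : ℂ)‖ ≤ D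

theorem stepGraph_adj {D : ℝ} {a b : GaussianInt} (h : (stepGraph D).Adj a b) :
    Prime a ∧ Prime b ∧ ‖(a : ℂ) - (b : ℂ)‖ ≤ D := by
  rw [SimpleGraph.fromRel_adj] at h
  rcases h.2 with h | h
  · exact h
  · exact ⟨h.2.1, h.1, by rw [norm_sub_rev]; exact h.2.2⟩

theorem mem_sq_of_norm_le {K : ℕ} {a : GaussianInt} (h : ‖(a : ℂ)‖ ≤ K) : a ∈ sq K := by
  have h1 := (Complex.abs_re_le_norm (a : ℂ)).trans h
  have h2 := (Complex.abs_im_le_norm (a : ℂ)).trans h
  rw [← GaussianInt.intCast_re, abs_le] at h1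
  rw [← GaussianInt.intCast_im, abs_le] at h2
  rw [mem_sq]
  exact ⟨⟨by exact_mod_cast h1.1, by exact_mod_cast h1.2⟩,
    by exact_mod_cast h2.1, by exact_mod_cast h2.2⟩

/-- Position of the `i`-th point of a walk with steps `s`. -/
def pre {L : ℕ} (s : Fin L → GaussianInt) (i : Fin L) : GaussianInt := ∑ j ∈ Finset.Iio i, s j

/-- The step patterns with distinct positions. -/
def patterns (K L : ℕ) : Finset (Fin L → GaussianInt) :=
  (Fintype.piFinset fun _ : Fin L => sq K).filter fun s => Function.Injective (pre s)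

theorem card_patterns (K L : ℕ) : (patterns K L).card ≤ ((2 * K + 1) ^ 2) ^ L := by
  refine (Finset.card_filter_le _ _).trans ?_
  rw [Fintype.card_piFinset_const]
  exact Nat.pow_le_pow_left (card_sq K) L

theorem pre_bound {K L : ℕ} {s : Fin L → GaussianInt} (hs : s ∈ patterns K L) (i : Fin L) :
    pre s i ∈ sq (L * K) := by
  have h : ∀ j, s j ∈ sq K := Fintype.mem_piFinset.1 (Finset.mem_filter.1 hs).1
  have key : ∀ t : Finset (Fin L), ∑ j ∈ t, s j ∈ sq (t.card * K) := by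
    intro t
    induction t using Finset.induction with
    | empty => simp [mem_sq]
    | @insert j t hj ih =>
      rw [Finset.sum_insert hj, Finset.card_insert_of_notMem hj, mem_sq]
      have h1 := mem_sq.1 (h j)
      have h2 := mem_sq.1 ih
      push_cast at h2
      push_cast
      simp only [Zsqrtd.re_add, Zsqrtd.im_add, add_mul, one_mul]
      omega
  have h2 := mem_sq.1 (key (Finset.Iio i))
  have hc : (Finset.Iio i).card * K ≤ L * K :=
    Nat.mul_le_mul_right K (by rw [Fin.card_Iio]; omega)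
  have hc' : ((Finset.Iio i).card : ℤ) * K ≤ (L : ℤ) * K := by exact_mod_cast hc
  push_cast at h2
  rw [pre, mem_sq]
  push_cast
  refine ⟨⟨?_, ?_⟩, ?_, ?_⟩ <;> linarith [h2.1.1, h2.1.2, h2.2.1, h2.2.2]

theorem exists_pattern {D : ℝ} {L : ℕ} {z w : GaussianInt}
    (hr : (stepGraph D).Reachable z w) (hne : z ≠ w)
    (hL : (L : ℝ) * D < ‖(w : ℂ) - (z : ℂ)‖) :
    ∃ s ∈ patterns ⌈D⌉₊ L, ∀ i, Prime (z + pre s i) := by
  obtain ⟨p, hp⟩ := hr.exists_isPath
  have hstep : ∀ i, i ≤ p.length → ‖(p.getVert i : ℂ) - (z : ℂ)‖ ≤ i * D := by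
    intro i
    induction i with
    | zero => intro _; simp
    | succ i ih =>
      intro hi
      have h1 := ih (by omega)
      have h2 := (stepGraph_adj (p.adj_getVert_succ (i := i) (by omega))).2.2
      rw [norm_sub_rev] at h2
      push_cast
      have h3 := norm_sub_le_norm_sub_add_norm_sub (p.getVert (i + 1) : ℂ)
        (p.getVert i : ℂ) (z : ℂ)
      linarith
  have hlen0 : 0 < p.length := Nat.pos_of_ne_zero fun h => hne (p.eq_of_length_eq_zero h)
  have hD : 0 ≤ D :=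
    (norm_nonneg _).trans (stepGraph_adj (p.adj_getVert_succ (i := 0) hlen0)).2.2
  have hlen' : L ≤ p.length := by
    by_contra h
    push Not at h
    have h1 := hstep p.length le_rfl
    rw [p.getVert_length] at h1
    have : (p.length : ℝ) ≤ L := by exact_mod_cast h.le
    nlinarith
  set s : Fin L → GaussianInt := fun j => p.getVert (j + 1) - p.getVert j with hs
  have hpre : ∀ i : Fin L, pre s i = p.getVert i - z := by
    intro i
    have e : (Finset.Iio i).map Fin.valEmbedding = Finset.range (i : ℕ) := by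
      rw [Fin.map_valEmbedding_Iio, Nat.Iio_eq_range]
    calc pre s i = ∑ j ∈ (Finset.Iio i).map Fin.valEmbedding,
          (p.getVert (j + 1) - p.getVert j) := by rw [Finset.sum_map]; rfl
      _ = _ := by rw [e, Finset.sum_range_sub, p.getVert_zero]
  have hprime : ∀ i : Fin L, Prime (z + pre s i) := by
    intro i
    rw [hpre, add_sub_cancel]
    exact (stepGraph_adj (p.adj_getVert_succ (i := i) (by omega))).1
  refine ⟨s, ?_, hprime⟩
  rw [patterns, Finset.mem_filter, Fintype.mem_piFinset]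
  refine ⟨fun j => mem_sq_of_norm_le ?_, fun i j hij => ?_⟩
  · rw [hs, GaussianInt.toComplex_sub, norm_sub_rev]
    exact (stepGraph_adj (p.adj_getVert_succ (i := j) (by omega))).2.2.trans (Nat.le_ceil D)
  · rw [hpre, hpre, sub_left_inj] at hij
    exact Fin.ext (hp.getVert_injOn (show (i : ℕ) ≤ p.length by omega)
      (show (j : ℕ) ≤ p.length by omega) hij)

theorem exists_subset_sum {P : Finset GaussianInt} {f : GaussianInt → ℝ} {B : ℝ} (hf : ∀ a ∈ P, f a ≤ 1)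
    (hB0 : 0 ≤ B) (hB : B ≤ ∑ a ∈ P, f a) :
    ∃ Q, Q ⊆ P ∧ B ≤ ∑ a ∈ Q, f a ∧ ∑ a ∈ Q, f a ≤ B + 1 := by
  induction P using Finset.induction with
  | empty => exact ⟨∅, subset_rfl, by simpa using hB, by simp; linarith⟩
  | @insert a P ha ih =>
    by_cases h : B ≤ ∑ b ∈ P, f b
    · obtain ⟨Q, h1, h2⟩ := ih (fun b hb => hf b (Finset.mem_insert_of_mem hb)) h
      exact ⟨Q, h1.trans (Finset.subset_insert a P), h2⟩
    · refine ⟨insert a P, subset_rfl, hB, ?_⟩
      rw [Finset.sum_insert ha]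
      linarith [hf a (Finset.mem_insert_self a P)]

/-- The count for a single pattern. -/
theorem pattern_bound {L : ℕ} (g : Fin L → GaussianInt) (P : Finset GaussianInt) (r z X : ℕ)
    (hP : ∀ π ∈ P, Prime π) (hna : ∀ a ∈ P, ∀ b ∈ P, a ∣ b → a = b)
    (hdist : ∀ π ∈ P, ∀ i j, i ≠ j → ¬ π ∣ g i - g j)
    (hz : ∀ π ∈ P, nrm π ≤ z) (hz1 : 1 ≤ z) (hL : ∀ π ∈ P, L ≤ nrm π) :
    (((sq X).filter fun x => ∀ i, Prime (x + g i)).card : ℝ) ≤
      ((2 * X + 1 : ℕ) : ℝ) ^ 2 * (Real.exp (-∑ π ∈ P, (L : ℝ) / nrm π) +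
        Real.exp (2 * ∑ π ∈ P, (L : ℝ) / nrm π) / 4 ^ r) +
      (2 * r + 1) * ((P.card : ℝ) + 1) ^ (2 * r) *
        (2 * ((2 * X + 1 : ℕ) : ℝ) * (z : ℝ) ^ (2 * r) + ((z : ℝ) ^ (2 * r)) ^ 2) +
      L * (2 * z + 1) ^ 2 := by
  set o : GaussianInt := ⟨X, X⟩ with ho
  have hs := sieve (fun i => g i - o) P r z (2 * X + 1) hP hna
    (fun π hπ i j hij => by rw [sub_sub_sub_cancel_right]; exact hdist π hπ i j hij) hz hz1 hL
  refine le_trans ?_ (add_le_add hs le_rfl)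
  have hsub : (sq X).filter (fun x => ∀ i, Prime (x + g i)) ⊆
      ((box (2 * X + 1)).filter fun x => ∀ π ∈ P, ∀ i, ¬ π ∣ x + (g i - o)).image
        (fun x => x - o) ∪ Finset.univ.biUnion fun i => (sq z).image fun y => y - g i := by
    intro x hx
    rw [Finset.mem_filter] at hx
    rw [Finset.mem_union]
    by_cases h : ∀ π ∈ P, ∀ i, ¬ π ∣ x + g i
    · left
      rw [Finset.mem_image]
      refine ⟨x + o, Finset.mem_filter.2 ⟨?_, fun π hπ i => ?_⟩, by ring⟩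
      · have := mem_sq.1 hx.1
        rw [mem_box]
        simp only [ho, Zsqrtd.re_add, Zsqrtd.im_add]
        push_cast
        omega
      · rw [show x + o + (g i - o) = x + g i by ring]; exact h π hπ i
    · right
      push Not at h
      obtain ⟨π, hπ, i, hi⟩ := h
      simp only [Finset.mem_biUnion, Finset.mem_univ, true_and, Finset.mem_image]
      refine ⟨i, x + g i, mem_sq_of_nrm_le ?_, by ring⟩
      rw [← nrm_eq_of_assoc ((hP π hπ).associated_of_dvd (hx.2 i) hi)]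
      exact hz π hπ
  have h2 : (Finset.univ.biUnion fun i : Fin L => (sq z).image fun y => y - g i).card ≤
      L * (2 * z + 1) ^ 2 := by
    refine Finset.card_biUnion_le.trans ?_
    refine (Finset.sum_le_card_nsmul _ _ _ fun i _ =>
      Finset.card_image_le.trans (card_sq z)).trans ?_
    simp
  have h3 := (Finset.card_le_card hsub).trans (Finset.card_union_le _ _)
  have h4 := h3.trans (add_le_add Finset.card_image_le h2)
  have h5 := (Nat.cast_le (α := ℝ)).2 h4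
  push_cast at h5
  refine h5.trans (le_of_eq ?_)
  unfold cnt
  congr

theorem nrm_diff_le {K L m : ℕ} {s : Fin L → GaussianInt} (hs : s ∈ patterns K L) (hK : 8 * K ^ 2 ≤ m)
    (hL : L ≤ m) (i j : Fin L) : nrm (pre s i - pre s j) ≤ m ^ 3 := by
  have a := mem_sq.1 (pre_bound hs i)
  have b := mem_sq.1 (pre_bound hs j)
  have e := nrm_eq (pre s i - pre s j)
  simp only [Zsqrtd.re_sub, Zsqrtd.im_sub] at e
  have hb : 8 * (L * K) ^ 2 ≤ m ^ 3 := by
    calc 8 * (L * K) ^ 2 = (L * L) * (8 * K ^ 2) := by ring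
      _ ≤ (m * m) * m := by gcongr
      _ = m ^ 3 := by ring
  have h1 : ((pre s i).re - (pre s j).re) * ((pre s i).re - (pre s j).re) ≤
      (2 * ((L * K : ℕ) : ℤ)) * (2 * ((L * K : ℕ) : ℤ)) := by
    rw [← pow_two, ← pow_two]
    exact sq_le_sq' (by linarith [a.1.1, b.1.2]) (by linarith [a.1.2, b.1.1])
  have h2 : ((pre s i).im - (pre s j).im) * ((pre s i).im - (pre s j).im) ≤
      (2 * ((L * K : ℕ) : ℤ)) * (2 * ((L * K : ℕ) : ℤ)) := by
    rw [← pow_two, ← pow_two]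
    exact sq_le_sq' (by linarith [a.2.1, b.2.2]) (by linarith [a.2.2, b.2.1])
  have h3 : (nrm (pre s i - pre s j) : ℤ) ≤ ((8 * (L * K) ^ 2 : ℕ) : ℤ) := by
    push_cast at h1 h2 ⊢
    linarith
  exact le_trans (by exact_mod_cast h3) hb

/-- Simplification of the sieve bound. -/
theorem bound_simplify {X z L R c : ℕ} {B lam : ℝ} (hX : 1 ≤ X) (hz : 16 ≤ z) (hLz : L ≤ z)
    (hR : 1 ≤ R) (hlo : B ≤ lam) (hhi : lam ≤ B + 1) (hRB : 3 * (B + 1) ≤ (R : ℝ))
    (hc : c ≤ (2 * z + 1) ^ 2) :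
    ((2 * X + 1 : ℕ) : ℝ) ^ 2 * (Real.exp (-((L : ℝ) * lam)) +
        Real.exp (2 * ((L : ℝ) * lam)) / 4 ^ (L * R)) +
      (2 * ((L * R : ℕ) : ℝ) + 1) * ((c : ℝ) + 1) ^ (2 * (L * R)) *
        (2 * ((2 * X + 1 : ℕ) : ℝ) * (z : ℝ) ^ (2 * (L * R)) + ((z : ℝ) ^ (2 * (L * R))) ^ 2) +
      (L : ℝ) * (2 * (z : ℝ) + 1) ^ 2 ≤
    9 * (X : ℝ) ^ 2 * (2 * Real.exp (-(L : ℝ) * B)) + 18 * X * (z : ℝ) ^ (11 * (L * R)) := by
  have e3 : (1 : ℝ) ≤ X := by exact_mod_cast hX
  have hz16 : (16 : ℝ) ≤ z := by exact_mod_cast hz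
  have hz' : (1 : ℝ) ≤ z := by linarith
  have hL0 : (0 : ℝ) ≤ L := Nat.cast_nonneg L
  have hexp1 : Real.exp (-((L : ℝ) * lam)) ≤ Real.exp (-(L : ℝ) * B) := by
    rw [Real.exp_le_exp]
    linarith [mul_le_mul_of_nonneg_left hlo hL0]
  have hexp2 : Real.exp (2 * ((L : ℝ) * lam)) / 4 ^ (L * R) ≤ Real.exp (-(L : ℝ) * B) := by
    rw [div_le_iff₀ (by positivity), ← Real.exp_log (show (0 : ℝ) < 4 by norm_num),
      ← Real.exp_nat_mul, ← Real.exp_add, Real.exp_le_exp]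
    have h4 : 1 ≤ Real.log 4 := by
      rw [Real.le_log_iff_exp_le (by norm_num)]
      linarith [Real.exp_one_lt_d9]
    have a1 := mul_le_mul_of_nonneg_left hhi hL0
    have a2 := mul_le_mul_of_nonneg_left hRB hL0
    have a3 : (L : ℝ) * R ≤ L * R * Real.log 4 := le_mul_of_one_le_right (by positivity) h4
    push_cast
    linarith
  have hM : ((2 * X + 1 : ℕ) : ℝ) ≤ 3 * X := by push_cast; linarith
  have hmain : ((2 * X + 1 : ℕ) : ℝ) ^ 2 * (Real.exp (-((L : ℝ) * lam)) +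
      Real.exp (2 * ((L : ℝ) * lam)) / 4 ^ (L * R)) ≤
      9 * (X : ℝ) ^ 2 * (2 * Real.exp (-(L : ℝ) * B)) := by
    refine mul_le_mul ?_ (by linarith) (by positivity) (by positivity)
    calc ((2 * X + 1 : ℕ) : ℝ) ^ 2 ≤ (3 * (X : ℝ)) ^ 2 := pow_le_pow_left₀ (by positivity) hM 2
      _ = _ := by ring
  have hzr : (2 * ((L * R : ℕ) : ℝ) + 1) ≤ (z : ℝ) ^ (L * R) := by
    generalize L * R = r
    have h1 : 2 * r + 1 ≤ 16 ^ r := by
      induction r with
      | zero => simp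
      | succ n ih => rw [pow_succ]; omega
    refine le_trans ?_ (pow_le_pow_left₀ (by norm_num) hz16 r)
    exact_mod_cast h1
  have hcard : ((c : ℝ) + 1) ≤ (z : ℝ) ^ 3 := by
    have h1' : (c : ℝ) ≤ (2 * (z : ℝ) + 1) ^ 2 := by exact_mod_cast hc
    have h2 : 16 * (z : ℝ) ^ 2 ≤ (z : ℝ) ^ 3 := by
      rw [pow_succ _ 2, mul_comm]
      exact mul_le_mul_of_nonneg_left hz16 (by positivity)
    linarith [show (2 * (z : ℝ) + 1) ^ 2 + 1 ≤ 16 * (z : ℝ) ^ 2 by nlinarith]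
  have hcard2 : ((c : ℝ) + 1) ^ (2 * (L * R)) ≤ (z : ℝ) ^ (6 * (L * R)) := by
    refine (pow_le_pow_left₀ (by positivity) hcard (2 * (L * R))).trans_eq ?_
    rw [← pow_mul]; congr 1; ring
  have hin : 2 * ((2 * X + 1 : ℕ) : ℝ) * (z : ℝ) ^ (2 * (L * R)) +
      ((z : ℝ) ^ (2 * (L * R))) ^ 2 ≤ 9 * X * (z : ℝ) ^ (4 * (L * R)) := by
    have e1 : ((z : ℝ) ^ (2 * (L * R))) ^ 2 = (z : ℝ) ^ (4 * (L * R)) := by
      rw [← pow_mul]; congr 1; ring
    have e2 : (z : ℝ) ^ (2 * (L * R)) ≤ (z : ℝ) ^ (4 * (L * R)) :=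
      pow_le_pow_right₀ hz' (by omega)
    rw [e1]
    have e4 := mul_le_mul (by linarith : 2 * ((2 * X + 1 : ℕ) : ℝ) ≤ 8 * X) e2 (by positivity)
      (by positivity)
    have e5 : (z : ℝ) ^ (4 * (L * R)) ≤ X * (z : ℝ) ^ (4 * (L * R)) :=
      le_mul_of_one_le_left (by positivity) e3
    linarith
  have herr : (2 * ((L * R : ℕ) : ℝ) + 1) * ((c : ℝ) + 1) ^ (2 * (L * R)) *
      (2 * ((2 * X + 1 : ℕ) : ℝ) * (z : ℝ) ^ (2 * (L * R)) + ((z : ℝ) ^ (2 * (L * R))) ^ 2) ≤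
      9 * X * (z : ℝ) ^ (11 * (L * R)) := by
    refine (mul_le_mul (mul_le_mul hzr hcard2 (by positivity) (by positivity)) hin
      (by positivity) (by positivity)).trans_eq ?_
    have e : (z : ℝ) ^ (11 * (L * R)) =
        (z : ℝ) ^ (L * R) * (z : ℝ) ^ (6 * (L * R)) * (z : ℝ) ^ (4 * (L * R)) := by
      rw [← pow_add, ← pow_add]; congr 1; ring
    rw [e]; ring
  have hexc : (L : ℝ) * (2 * (z : ℝ) + 1) ^ 2 ≤ 9 * X * (z : ℝ) ^ (11 * (L * R)) := by
    rcases Nat.eq_zero_or_pos L with h0 | h0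
    · rw [h0, Nat.cast_zero, zero_mul]; positivity
    · have hLR : 1 ≤ L * R := Nat.mul_pos h0 hR
      have hLz' : (L : ℝ) ≤ z := by exact_mod_cast hLz
      have h5 : (2 * (z : ℝ) + 1) ^ 2 ≤ 9 * (z : ℝ) ^ 2 := by nlinarith
      calc (L : ℝ) * (2 * (z : ℝ) + 1) ^ 2 ≤ z * (9 * (z : ℝ) ^ 2) :=
            mul_le_mul hLz' h5 (by positivity) (by positivity)
        _ = 9 * 1 * (z : ℝ) ^ 3 := by ring
        _ ≤ _ := mul_le_mul (by linarith) (pow_le_pow_right₀ hz' (by omega)) (by positivity)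
            (by positivity)
  linarith

/-- The final numerical step. -/
theorem final_step {X S z : ℝ} {E R L m : ℕ} {δ : ℝ} (l u : ℝ)
    (hl : X = Real.exp l) (hl16 : 16 ≤ l) (hu : u = l / Real.log l) (hll : 1 ≤ Real.log l)
    (hS : 1 ≤ S) (hSz : S ≤ z) (hR : 1 ≤ R) (hδ : δ = 1 / (144 * E * R)) (hδ0 : 0 < δ)
    (hδ1 : δ ≤ 1 / 2) (hE : 0 < E)
    (hLu : (L : ℝ) ≤ δ * u) (hLu' : δ * u - 1 ≤ (L : ℝ))
    (hm0 : 1 ≤ m) (hm : (m : ℝ) ≤ 2 * l) (hzdef : z = ((m : ℝ) ^ 3) ^ E)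
    (hbig : (4 * (18 * Real.exp 2 + 18) / δ) ^ 2 ≤ l) :
    S ^ L * (9 * X ^ 2 * (2 * Real.exp (-(L : ℝ) * (Real.log S + 2))) +
        18 * X * z ^ (11 * (L * R))) ≤ X ^ 2 * Real.exp (-(δ / 2) * u) := by
  have hu0 : 0 ≤ u := by rw [hu]; exact div_nonneg (by linarith) (by linarith)
  have hul : u ≤ l := by rw [hu]; exact div_le_self (by linarith) hll
  have hz1 : 1 ≤ z := by linarith
  have hX0 : 0 < X := by rw [hl]; exact Real.exp_pos l
  have hδu : 0 ≤ δ * u := mul_nonneg hδ0.le hu0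
  have hSpow : S ^ L = Real.exp (L * Real.log S) := by
    rw [Real.exp_nat_mul, Real.exp_log (by linarith)]
  set ε := Real.exp (-(δ * u / 2)) with hε
  have hε0 : 0 ≤ ε := (Real.exp_pos _).le
  have hA : S ^ L * Real.exp (-(L : ℝ) * (Real.log S + 2)) ≤ Real.exp 2 * (ε * ε) := by
    rw [hSpow, hε, ← Real.exp_add, ← Real.exp_add, ← Real.exp_add, Real.exp_le_exp]
    linarith
  have hzpow : S ^ L * z ^ (11 * (L * R)) ≤ Real.exp (l / 2) := by
    have h1 : S ^ L ≤ z ^ (L * R) :=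
      (pow_le_pow_left₀ (by linarith) hSz L).trans
        (pow_le_pow_right₀ hz1 (Nat.le_mul_of_pos_right L hR))
    refine (mul_le_mul_of_nonneg_right h1 (by positivity)).trans ?_
    rw [← pow_add, show L * R + 11 * (L * R) = 12 * (L * R) by ring]
    have hzexp : z ^ (12 * (L * R)) = Real.exp (((36 * E * (L * R) : ℕ) : ℝ) * Real.log m) := by
      rw [Real.exp_nat_mul, Real.exp_log (by exact_mod_cast hm0), hzdef, ← pow_mul, ← pow_mul]
      congr 1; ring
    rw [hzexp, Real.exp_le_exp]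
    push_cast
    have hlm : Real.log m ≤ 2 * Real.log l := by
      rw [two_mul, ← Real.log_mul (by linarith) (by linarith)]
      refine Real.log_le_log (by exact_mod_cast hm0) (hm.trans ?_)
      exact mul_le_mul_of_nonneg_right (by linarith) (by linarith)
    calc 36 * (E : ℝ) * ((L : ℝ) * R) * Real.log m
        ≤ 36 * (E : ℝ) * ((L : ℝ) * R) * (2 * Real.log l) :=
          mul_le_mul_of_nonneg_left hlm (by positivity)
      _ = (72 * E * R * Real.log l) * L := by ring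
      _ ≤ (72 * E * R * Real.log l) * (δ * u) :=
          mul_le_mul_of_nonneg_left hLu (by positivity)
      _ = l / 2 := by
          have h1 : (0 : ℝ) < E := by exact_mod_cast hE
          have h2 : (0 : ℝ) < R := by exact_mod_cast hR
          rw [hδ, hu]
          field_simp
          ring
  have hB' : Real.exp (l / 2) * X ≤ X ^ 2 * (ε * ε) := by
    rw [hl, hε, ← Real.exp_nat_mul, ← Real.exp_add, ← Real.exp_add, ← Real.exp_add,
      Real.exp_le_exp]
    push_cast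
    have : δ * u ≤ (1 / 2) * l := mul_le_mul hδ1 hul hu0 (by norm_num)
    linarith
  set C : ℝ := 18 * Real.exp 2 + 18 with hC
  have hC0 : 0 < C := by rw [hC]; positivity
  have hsmall : C * ε ≤ 1 := by
    have h := Real.log_le_rpow_div (show 0 ≤ l by linarith) (show (0 : ℝ) < 1 / 2 by norm_num)
    rw [← Real.sqrt_eq_rpow] at h
    have h1 : Real.sqrt l / 2 ≤ u := by
      rw [hu, le_div_iff₀ (by linarith)]
      have := Real.mul_self_sqrt (show 0 ≤ l by linarith)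
      nlinarith [mul_le_mul_of_nonneg_left h (Real.sqrt_nonneg l)]
    have h2 : 4 * C / δ ≤ Real.sqrt l := Real.le_sqrt_of_sq_le hbig
    rw [div_le_iff₀ hδ0] at h2
    have h3 : C ≤ δ * u / 2 := by
      have := mul_le_mul_of_nonneg_left h1 hδ0.le
      linarith
    rw [hε, Real.exp_neg, mul_inv_le_iff₀ (Real.exp_pos _), one_mul]
    linarith [Real.add_one_le_exp (δ * u / 2)]
  calc _ = 18 * X ^ 2 * (S ^ L * Real.exp (-(L : ℝ) * (Real.log S + 2))) +
        18 * ((S ^ L * z ^ (11 * (L * R))) * X) := by ring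
    _ ≤ 18 * X ^ 2 * (Real.exp 2 * (ε * ε)) + 18 * (X ^ 2 * (ε * ε)) :=
        add_le_add (mul_le_mul_of_nonneg_left hA (by positivity))
          (mul_le_mul_of_nonneg_left ((mul_le_mul_of_nonneg_right hzpow hX0.le).trans hB')
            (by norm_num))
    _ = X ^ 2 * ((C * ε) * ε) := by rw [hC]; ring
    _ ≤ X ^ 2 * ε :=
        mul_le_mul_of_nonneg_left (mul_le_of_le_one_left hε0 hsmall) (by positivity)
    _ = _ := by rw [hε]; congr 2; ring

theorem delta_mul {e r : ℝ} (he : 1 ≤ e) (hr : 1 ≤ r) : 1 / (144 * e * r) * r ≤ 1 := by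
  have h : 0 < e * r := by positivity
  rw [div_mul_eq_mul_div, div_le_one (by linarith)]
  nlinarith

/-- The count over all patterns. -/
theorem count_all {K L R m z X : ℕ} {B : ℝ} {P : Finset GaussianInt}
    (hP : ∀ π ∈ P, π ∈ prm z ∧ m ^ 3 < nrm π) (hK : 8 * K ^ 2 ≤ m) (hL : L ≤ m)
    (hm16 : 16 ≤ m) (hmz : m ≤ z) (hX : 1 ≤ X) (hR : 1 ≤ R)
    (hlo : B ≤ ∑ π ∈ P, 1 / (nrm π : ℝ)) (hhi : ∑ π ∈ P, 1 / (nrm π : ℝ) ≤ B + 1)
    (hRB : 3 * (B + 1) ≤ (R : ℝ)) :
    ((((patterns K L).biUnion fun s =>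
      (sq X).filter fun x => ∀ i, Prime (x + pre s i)).card : ℕ) : ℝ) ≤
      (((2 * K + 1) ^ 2 : ℕ) : ℝ) ^ L * (9 * (X : ℝ) ^ 2 * (2 * Real.exp (-(L : ℝ) * B)) +
        18 * X * (z : ℝ) ^ (11 * (L * R))) := by
  have hone : ∀ s ∈ patterns K L,
      (((sq X).filter fun x => ∀ i, Prime (x + pre s i)).card : ℝ) ≤
        9 * (X : ℝ) ^ 2 * (2 * Real.exp (-(L : ℝ) * B)) +
          18 * X * (z : ℝ) ^ (11 * (L * R)) := by
    intro s hs
    have hinj : Function.Injective (pre s) := (Finset.mem_filter.1 hs).2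
    have hdist : ∀ π ∈ P, ∀ i j, i ≠ j → ¬ π ∣ pre s i - pre s j := by
      intro π hπ i j hij hdvd
      obtain ⟨t, ht⟩ := hdvd
      have hne : pre s i - pre s j ≠ 0 := sub_ne_zero.2 fun e => hij (hinj e)
      have h1 : nrm π ≤ nrm (pre s i - pre s j) := by
        rw [ht, nrm_mul]
        exact Nat.le_mul_of_pos_right _ (one_le_nrm (right_ne_zero_of_mul (ht ▸ hne)))
      have h2 := nrm_diff_le hs hK hL i j
      have := (hP π hπ).2
      omega
    have hm3 : m ≤ m ^ 3 := Nat.le_self_pow (by norm_num) m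
    have h := pattern_bound (pre s) P (L * R) z X (fun π hπ => (mem_prm.1 (hP π hπ).1).1)
      (fun a ha b hb => prm_eq_of_dvd (hP a ha).1 (hP b hb).1) hdist
      (fun π hπ => (mem_prm.1 (hP π hπ).1).2.2) (by omega)
      (fun π hπ => by have := (hP π hπ).2; omega)
    have hsum : ∑ π ∈ P, (L : ℝ) / nrm π = L * ∑ π ∈ P, 1 / (nrm π : ℝ) := by
      rw [Finset.mul_sum]; simp only [mul_one_div]
    rw [hsum] at h
    refine h.trans (bound_simplify hX (hm16.trans hmz) (hL.trans hmz) hR hlo hhi hRB ?_)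
    refine le_trans ?_ (card_sq z)
    exact Finset.card_le_card fun π hπ => mem_sq_of_nrm_le (mem_prm.1 (hP π hπ).1).2.2
  have h1 : ((((patterns K L).biUnion fun s =>
      (sq X).filter fun x => ∀ i, Prime (x + pre s i)).card : ℕ) : ℝ) ≤
      ((∑ s ∈ patterns K L, ((sq X).filter fun x => ∀ i, Prime (x + pre s i)).card : ℕ) : ℝ) := by
    exact_mod_cast Finset.card_biUnion_le
  refine h1.trans ?_
  rw [Nat.cast_sum]
  refine (Finset.sum_le_card_nsmul _ _ _ hone).trans ?_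
  rw [nsmul_eq_mul]
  refine mul_le_mul_of_nonneg_right ?_ (by positivity)
  exact_mod_cast card_patterns K L

theorem escape_subset {D : ℝ} {L : ℕ} {X : ℕ} (hl : 0 ≤ Real.log X)
    (hLD : (L : ℝ) * D ≤ Real.log X) :
    {x : GaussianInt | Prime x ∧ ‖(x : ℂ)‖ ≤ X ∧
      ∃ y, (stepGraph D).Reachable x y ∧ Real.log X < ‖(y : ℂ) - (x : ℂ)‖} ⊆
      ↑((patterns ⌈D⌉₊ L).biUnion fun s =>
        (sq X).filter fun x => ∀ i, Prime (x + pre s i)) := by
  rintro x ⟨-, hx, y, hy, hxy⟩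
  have hne : x ≠ y := fun e => by
    rw [e, sub_self, norm_zero] at hxy; linarith
  obtain ⟨s, hs, hsP⟩ := exists_pattern hy hne (hLD.trans_lt hxy)
  rw [Finset.mem_coe, Finset.mem_biUnion]
  exact ⟨s, hs, Finset.mem_filter.2 ⟨mem_sq_of_norm_le hx, hsP⟩⟩

/-- All but few lattice points are cut off within distance `log X`. -/
theorem few_escape (D : ℝ) : ∃ c : ℝ, 0 < c ∧ ∃ X0 : ℕ, ∀ X : ℕ, X0 ≤ X →
    (({z : GaussianInt | Prime z ∧ ‖(z : ℂ)‖ ≤ X ∧
        ∃ w, (stepGraph D).Reachable z w ∧ Real.log X < ‖(w : ℂ) - (z : ℂ)‖}).ncard : ℝ) ≤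
      (X : ℝ) ^ 2 * Real.exp (-c * (Real.log X / Real.log (Real.log X))) := by
  set K := ⌈D⌉₊ with hK
  set S : ℝ := (((2 * K + 1) ^ 2 : ℕ) : ℝ) with hS
  have hS1 : 1 ≤ S := by rw [hS]; exact_mod_cast Nat.one_le_pow _ _ (by omega)
  set B : ℝ := Real.log S + 2 with hB
  have hB0 : 2 ≤ B := by linarith [Real.log_nonneg hS1]
  set J : ℕ := ⌈2 * B⌉₊ with hJ
  set E : ℕ := 4 ^ J with hE
  set R : ℕ := ⌈3 * (B + 1)⌉₊ + K with hR
  have hRB : 3 * (B + 1) ≤ R := by
    rw [hR]; push_cast; linarith [Nat.le_ceil (3 * (B + 1)), (Nat.cast_nonneg K : (0 : ℝ) ≤ K)]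
  have hR1 : (1 : ℝ) ≤ R := by linarith
  have hDR : D ≤ R := by
    refine (Nat.le_ceil D).trans ?_
    rw [← hK, hR]; push_cast; linarith [(Nat.cast_nonneg ⌈3 * (B + 1)⌉₊ : (0 : ℝ) ≤ _)]
  have hE1 : (1 : ℝ) ≤ E := by rw [hE]; exact_mod_cast Nat.one_le_pow _ _ (by norm_num)
  set δ : ℝ := 1 / (144 * E * R) with hδ
  have hER : 1 ≤ (E : ℝ) * R := one_le_mul_of_one_le_of_one_le hE1 hR1
  have hδ0 : 0 < δ := by rw [hδ]; exact div_pos one_pos (by nlinarith)
  have hδ1 : δ ≤ 1 / 2 := by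
    rw [hδ, div_le_div_iff₀ (by nlinarith) (by norm_num)]; nlinarith
  obtain ⟨w0, hw0⟩ := band_sum
  clear_value R
  set C : ℝ := 18 * Real.exp 2 + 18 with hC
  set T : ℝ := (8 * K ^ 2 + w0 + 16 + S : ℝ) + (4 * C / δ) ^ 2 with hT
  refine ⟨δ / 2, by positivity, ⌈Real.exp T⌉₊, fun X hX => ?_⟩
  have hXR : Real.exp T ≤ X := (Nat.le_ceil _).trans (by exact_mod_cast hX)
  have hX0 : (0 : ℝ) < X := lt_of_lt_of_le (Real.exp_pos T) hXR
  set l := Real.log X with hl
  have hlT : T ≤ l := by rw [hl, Real.le_log_iff_exp_le hX0]; exact hXR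
  have hCδ : 0 ≤ (4 * C / δ) ^ 2 := sq_nonneg _
  have hl16 : 16 ≤ l := by
    have : (0 : ℝ) ≤ 8 * (K : ℝ) ^ 2 + w0 := by positivity
    linarith
  have hll : 1 ≤ Real.log l := by
    rw [Real.le_log_iff_exp_le (by linarith)]
    have := Real.exp_one_lt_d9
    linarith
  set u := l / Real.log l with hu
  have hu0 : 0 ≤ u := div_nonneg (by linarith) (by linarith)
  have hul : u ≤ l := div_le_self (by linarith) hll
  set L := ⌊δ * u⌋₊ with hL
  have hLu : (L : ℝ) ≤ δ * u := Nat.floor_le (by positivity)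
  have hLu' : δ * u - 1 ≤ (L : ℝ) := by linarith [Nat.lt_floor_add_one (δ * u)]
  set m := ⌈l⌉₊ with hm
  have hml : l ≤ m := Nat.le_ceil l
  have hml' : (m : ℝ) ≤ 2 * l := by linarith [Nat.ceil_lt_add_one (show 0 ≤ l by linarith)]
  have hm16 : 16 ≤ m := by exact_mod_cast hl16.trans hml
  have hmw : w0 ≤ m := by
    have : (w0 : ℝ) ≤ m := by
      have : (0 : ℝ) ≤ 8 * (K : ℝ) ^ 2 := by positivity
      linarith
    exact_mod_cast this
  have hmK : 8 * K ^ 2 ≤ m := by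
    have : ((8 * K ^ 2 : ℕ) : ℝ) ≤ m := by
      push_cast
      linarith [(Nat.cast_nonneg w0 : (0 : ℝ) ≤ w0)]
    exact_mod_cast this
  have hLm : L ≤ m := by
    have : (L : ℝ) ≤ m := by nlinarith
    exact_mod_cast this
  set w := m ^ 3 with hw
  have hmw3 : m ≤ w := Nat.le_self_pow (by norm_num) m
  set z := w ^ E with hz
  have hwz : w ≤ z := Nat.le_self_pow (by positivity) w
  have hz1 : 1 ≤ z := by omega
  have hSz : S ≤ z := by
    have h1 : (m : ℝ) ≤ z := by exact_mod_cast hmw3.trans hwz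
    have : (0 : ℝ) ≤ 8 * (K : ℝ) ^ 2 + w0 := by positivity
    linarith
  clear_value m L δ
  set band := (prm z).filter fun π => w < nrm π with hband
  have hbs : B ≤ ∑ π ∈ band, 1 / (nrm π : ℝ) := by
    refine le_trans ?_ (hw0 w (hmw.trans hmw3) J)
    have : 2 * B ≤ J := Nat.le_ceil _
    linarith
  obtain ⟨P, hPb, hPlo, hPhi⟩ := exists_subset_sum (f := fun π => 1 / (nrm π : ℝ))
    (fun a ha => by
      rw [hband, Finset.mem_filter, mem_prm] at ha
      rw [div_le_one (by exact_mod_cast one_le_nrm ha.1.1.ne_zero)]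
      exact_mod_cast one_le_nrm ha.1.1.ne_zero) (by linarith) hbs
  have hPmem : ∀ π ∈ P, π ∈ prm z ∧ w < nrm π := fun π hπ => by
    have := hPb hπ; rwa [hband, Finset.mem_filter] at this
  have hcount := count_all (X := X) hPmem hmK hLm hm16 (hmw3.trans hwz) (by exact_mod_cast hX0)
    (by exact_mod_cast hR1) hPlo hPhi hRB
  have hLD : (L : ℝ) * D ≤ Real.log X := by
    have h1 : δ * R ≤ 1 := by rw [hδ]; exact delta_mul hE1 hR1
    calc (L : ℝ) * D ≤ L * R := mul_le_mul_of_nonneg_left hDR (Nat.cast_nonneg L)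
      _ ≤ δ * u * R := mul_le_mul_of_nonneg_right hLu (Nat.cast_nonneg R)
      _ = δ * R * u := by ring
      _ ≤ 1 * u := mul_le_mul_of_nonneg_right h1 hu0
      _ ≤ l := by linarith
  refine le_trans ?_ (le_trans hcount ?_)
  · have hsub := escape_subset (D := D) (L := L) (X := X) (by linarith) hLD
    rw [← hK] at hsub
    have := Set.ncard_le_ncard hsub (Finset.finite_toSet _)
    rw [Set.ncard_coe_finset] at this
    exact_mod_cast this
  rw [← hS, hB]
  refine final_step l u (Real.exp_log hX0).symm hl16 hu hll hS1 hSz (by exact_mod_cast hR1) hδ hδ0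
    hδ1 (by exact_mod_cast hE1) hLu hLu' (by omega) hml' ?_ ?_
  · rw [hz, hw]; push_cast; ring
  · have : (0 : ℝ) ≤ 8 * (K : ℝ) ^ 2 + w0 := by positivity
    linarith

/-- The number of Gaussian primes in a disc. -/
theorem primes_many : ∃ c : ℝ, 0 < c ∧ ∃ X0 : ℕ, ∀ X : ℕ, X0 ≤ X →
    c * (X : ℝ) ^ 2 / Real.log X ≤
      (({z : GaussianInt | Prime z ∧ ‖(z : ℂ)‖ ≤ X}).ncard : ℝ) := by
  obtain ⟨c, hc, x0, h⟩ := prm_count
  refine ⟨c / 2, by positivity, x0 + 2, fun X hX => ?_⟩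
  have h1 := h (X ^ 2) (by nlinarith)
  push_cast at h1
  rw [Real.log_pow] at h1
  have hfin : {z : GaussianInt | Prime z ∧ ‖(z : ℂ)‖ ≤ X}.Finite :=
    (sq X).finite_toSet.subset fun z hz => mem_sq_of_norm_le hz.2
  have hsub : (↑(prm (X ^ 2)) : Set GaussianInt) ⊆ {z : GaussianInt | Prime z ∧ ‖(z : ℂ)‖ ≤ X} := by
    intro z hz
    rw [Finset.mem_coe, mem_prm] at hz
    refine ⟨hz.1, ?_⟩
    have h2 : (nrm z : ℝ) ≤ (X : ℝ) ^ 2 := by exact_mod_cast hz.2.2
    rw [nrm_cast] at h2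
    exact (pow_le_pow_iff_left₀ (norm_nonneg _) (Nat.cast_nonneg X) two_ne_zero).1 h2
  have h3 := Set.ncard_le_ncard hsub hfin
  rw [Set.ncard_coe_finset] at h3
  have h4 : ((prm (X ^ 2)).card : ℝ) ≤
      (({z : GaussianInt | Prime z ∧ ‖(z : ℂ)‖ ≤ X}).ncard : ℝ) := by exact_mod_cast h3
  refine le_trans (le_of_eq ?_) (h1.trans h4)
  push_cast
  ring

theorem infinite_escapes (D : ℝ) {z : GaussianInt}
    (h : {w | (stepGraph D).Reachable z w}.Infinite) (b : ℝ) :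
    ∃ w, (stepGraph D).Reachable z w ∧ b < ‖(w : ℂ) - (z : ℂ)‖ := by
  by_contra hc
  push Not at hc
  refine h ((sq ⌈b + ‖(z : ℂ)‖⌉₊).finite_toSet.subset fun w hw => mem_sq_of_norm_le ?_)
  have h1 := hc w hw
  have h2 := norm_le_norm_sub_add (w : ℂ) (z : ℂ)
  have h3 := Nat.le_ceil (b + ‖(z : ℂ)‖)
  linarith

end Vale.Agent.P015.Moat
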