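import Mathlib

/-!
Gaussian lattice points in discs, and two dyadic summation lemmas.
-/

open Finset MeasureTheory
open GaussianInt (toComplex)

noncomputable section

namespace Vale.Agent.P015.Moat

/-- The norm as a natural number. -/
def nrm (a : GaussianInt) : ℕ := (Zsqrtd.norm a).natAbs

theorem nrm_mul (a b : GaussianInt) : nrm (a * b) = nrm a * nrm b := by
  simp [nrm, Zsqrtd.norm_mul, Int.natAbs_mul]

theorem nrm_cast (a : GaussianInt) : (nrm a : ℝ) = ‖(a : ℂ)‖ ^ 2 := by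
  rw [nrm, GaussianInt.natCast_natAbs_norm, GaussianInt.intCast_real_norm,
    Complex.normSq_eq_norm_sq]

theorem nrm_eq (a : GaussianInt) : (nrm a : ℤ) = a.re * a.re + a.im * a.im := by
  rw [nrm, GaussianInt.abs_natCast_norm, Zsqrtd.norm_def]; ring

theorem nrm_eq_zero {a : GaussianInt} : nrm a = 0 ↔ a = 0 := by
  rw [nrm, Int.natAbs_eq_zero, GaussianInt.norm_eq_zero]

theorem one_le_nrm {a : GaussianInt} (h : a ≠ 0) : 1 ≤ nrm a :=
  Nat.one_le_iff_ne_zero.2 (fun e => h (nrm_eq_zero.1 e))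

theorem nrm_one : nrm 1 = 1 := by simp [nrm, Zsqrtd.norm_def]

theorem nrm_pow (a : GaussianInt) (k : ℕ) : nrm (a ^ k) = nrm a ^ k := by
  induction k with
  | zero => simp [nrm_one]
  | succ k ih => rw [pow_succ, pow_succ, nrm_mul, ih]

/-- Square of lattice points with both coordinates in `[-K, K]`. -/
def sq (K : ℕ) : Finset GaussianInt :=
  (Finset.Icc (-(K : ℤ)) K ×ˢ Finset.Icc (-(K : ℤ)) K).image fun p => ⟨p.1, p.2⟩

theorem mem_sq {K : ℕ} {a : GaussianInt} :
    a ∈ sq K ↔ (-(K : ℤ) ≤ a.re ∧ a.re ≤ K) ∧ (-(K : ℤ) ≤ a.im ∧ a.im ≤ K) := by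
  simp only [sq, Finset.mem_image, Finset.mem_product, Finset.mem_Icc]
  constructor
  · rintro ⟨p, hp, rfl⟩; exact hp
  · intro h; exact ⟨(a.re, a.im), h, rfl⟩

theorem card_sq (K : ℕ) : (sq K).card ≤ (2 * K + 1) ^ 2 := by
  refine Finset.card_image_le.trans ?_
  rw [Finset.card_product, Int.card_Icc]
  have : ((K : ℤ) + 1 - -(K : ℤ)).toNat = 2 * K + 1 := by omega
  rw [this, pow_two]

theorem mem_sq_of_nrm_le {x : ℕ} {a : GaussianInt} (h : nrm a ≤ x) : a ∈ sq x := by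
  have h' : a.re * a.re + a.im * a.im ≤ x := by rw [← nrm_eq]; exact_mod_cast h
  have t1 := Int.le_self_sq a.re
  have t2 := Int.le_self_sq (-a.re)
  have t3 := Int.le_self_sq a.im
  have t4 := Int.le_self_sq (-a.im)
  rw [mem_sq]
  refine ⟨⟨?_, ?_⟩, ?_, ?_⟩ <;> nlinarith

/-- Nonzero lattice points of norm at most `x`. -/
def disc (x : ℕ) : Finset GaussianInt := (sq x).filter fun a => a ≠ 0 ∧ nrm a ≤ x

theorem mem_disc {x : ℕ} {a : GaussianInt} : a ∈ disc x ↔ a ≠ 0 ∧ nrm a ≤ x := by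
  simp only [disc, Finset.mem_filter, and_iff_right_iff_imp]
  exact fun h => mem_sq_of_nrm_le h.2

/-- The unit cell around a lattice point. -/
def cell (a : GaussianInt) : Set ℂ :=
  Complex.measurableEquivRealProd ⁻¹'
    (Set.Ico ((a.re : ℝ) - 1 / 2) (a.re + 1 / 2) ×ˢ Set.Ico ((a.im : ℝ) - 1 / 2) (a.im + 1 / 2))

theorem mem_cell {a : GaussianInt} {z : ℂ} : z ∈ cell a ↔
    ((a.re : ℝ) - 1 / 2 ≤ z.re ∧ z.re < a.re + 1 / 2) ∧
      ((a.im : ℝ) - 1 / 2 ≤ z.im ∧ z.im < a.im + 1 / 2) := by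
  simp [cell, Complex.measurableEquivRealProd_apply]

theorem measurableSet_cell (a : GaussianInt) : MeasurableSet (cell a) :=
  Complex.measurableEquivRealProd.measurable (measurableSet_Ico.prod measurableSet_Ico)

theorem volume_cell (a : GaussianInt) : volume (cell a) = 1 := by
  rw [cell, Complex.volume_preserving_equiv_real_prod.measure_preimage
    (measurableSet_Ico.prod measurableSet_Ico).nullMeasurableSet, Measure.volume_eq_prod,
    Measure.prod_prod, Real.volume_Ico, Real.volume_Ico]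
  norm_num

theorem cell_unique {a b : GaussianInt} {z : ℂ} (ha : z ∈ cell a) (hb : z ∈ cell b) : a = b := by
  rw [mem_cell] at ha hb
  have e : ∀ (p q : ℤ) (t : ℝ), (p : ℝ) - 1 / 2 ≤ t → t < p + 1 / 2 → (q : ℝ) - 1 / 2 ≤ t →
      t < q + 1 / 2 → p = q := by
    intro p q t h1 h2 h3 h4
    have u : ((p - q : ℤ) : ℝ) < ((1 : ℤ) : ℝ) := by push_cast; linarith
    have v : ((q - p : ℤ) : ℝ) < ((1 : ℤ) : ℝ) := by push_cast; linarith
    rw [Int.cast_lt] at u v
    omega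
  exact Zsqrtd.ext (e _ _ _ ha.1.1 ha.1.2 hb.1.1 hb.1.2) (e _ _ _ ha.2.1 ha.2.2 hb.2.1 hb.2.2)

theorem norm_sub_lt_one {a : GaussianInt} {z : ℂ} (h : z ∈ cell a) : ‖z - (a : ℂ)‖ < 1 := by
  rw [mem_cell] at h
  have e : ‖z - (a : ℂ)‖ ^ 2 = (z.re - a.re) ^ 2 + (z.im - a.im) ^ 2 := by
    rw [← Complex.normSq_eq_norm_sq, Complex.normSq_apply]
    simp [GaussianInt.intCast_re, GaussianInt.intCast_im]; ring
  nlinarith [norm_nonneg (z - (a : ℂ))]

theorem exists_cell (z : ℂ) : ∃ a : GaussianInt, z ∈ cell a := by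
  refine ⟨⟨⌊z.re + 1 / 2⌋, ⌊z.im + 1 / 2⌋⟩, mem_cell.2 ⟨⟨?_, ?_⟩, ?_, ?_⟩⟩
  · show ((⌊z.re + 1 / 2⌋ : ℤ) : ℝ) - 1 / 2 ≤ z.re
    linarith [Int.floor_le (z.re + 1 / 2)]
  · show z.re < ((⌊z.re + 1 / 2⌋ : ℤ) : ℝ) + 1 / 2
    linarith [Int.lt_floor_add_one (z.re + 1 / 2)]
  · show ((⌊z.im + 1 / 2⌋ : ℤ) : ℝ) - 1 / 2 ≤ z.im
    linarith [Int.floor_le (z.im + 1 / 2)]
  · show z.im < ((⌊z.im + 1 / 2⌋ : ℤ) : ℝ) + 1 / 2
    linarith [Int.lt_floor_add_one (z.im + 1 / 2)]

theorem norm_le_sqrt {x : ℕ} {a : GaussianInt} : ‖(a : ℂ)‖ ≤ Real.sqrt x ↔ nrm a ≤ x := by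
  rw [← Real.sqrt_sq (norm_nonneg (a : ℂ)), ← nrm_cast, Real.sqrt_le_sqrt_iff (Nat.cast_nonneg x),
    Nat.cast_le]

/-- The number of lattice points in a disc is its area up to a multiple of the radius. -/
theorem disc_count {x : ℕ} (hx : 1 ≤ x) :
    |((disc x).card : ℝ) - Real.pi * x| ≤ 14 * Real.sqrt x := by
  set s := Real.sqrt x with hs
  have hs1 : 1 ≤ s := by rw [hs, Real.one_le_sqrt]; exact_mod_cast hx
  have hss : s ^ 2 = x := Real.sq_sqrt (Nat.cast_nonneg x)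
  have h0 : (0 : GaussianInt) ∉ disc x := by simp [mem_disc]
  set U := insert (0 : GaussianInt) (disc x) with hU
  have hvol : volume (⋃ a ∈ U, cell a) = (U.card : ENNReal) := by
    rw [measure_biUnion_finset]
    · simp [volume_cell]
    · intro a _ b _ hab
      exact Set.disjoint_left.2 fun z hz hz' => hab (cell_unique hz hz')
    · exact fun a _ => measurableSet_cell a
  have hmemU : ∀ a, a ∈ U ↔ ‖(a : ℂ)‖ ≤ s := by
    intro a
    rw [hU, Finset.mem_insert, mem_disc, norm_le_sqrt]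
    constructor
    · rintro (rfl | h)
      · simp [nrm, Zsqrtd.norm_def]
      · exact h.2
    · intro h; by_cases ha : a = 0 <;> simp [ha, h]
  have up : (⋃ a ∈ U, cell a) ⊆ Metric.ball (0 : ℂ) (s + 1) := by
    intro z hz
    simp only [Set.mem_iUnion] at hz
    obtain ⟨a, ha, hz⟩ := hz
    rw [mem_ball_zero_iff]
    calc ‖z‖ ≤ ‖z - (a : ℂ)‖ + ‖(a : ℂ)‖ := norm_le_norm_sub_add z _
      _ < s + 1 := by linarith [norm_sub_lt_one hz, (hmemU a).1 ha]
  have low : Metric.ball (0 : ℂ) (s - 1) ⊆ ⋃ a ∈ U, cell a := by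
    intro z hz
    rw [mem_ball_zero_iff] at hz
    obtain ⟨a, ha⟩ := exists_cell z
    simp only [Set.mem_iUnion]
    refine ⟨a, (hmemU a).2 ?_, ha⟩
    calc ‖(a : ℂ)‖ ≤ ‖z‖ + ‖z - (a : ℂ)‖ := by
          rw [norm_sub_rev]; exact norm_le_norm_add_norm_sub' _ _ |>.trans (le_of_eq (by ring))
      _ ≤ s := by linarith [norm_sub_lt_one ha]
  have h1 := measure_mono (μ := volume) up
  have h2 := measure_mono (μ := volume) low
  rw [hvol, Complex.volume_ball] at h1 h2
  have h1' := ENNReal.toReal_mono (by finiteness) h1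
  have h2' := ENNReal.toReal_mono (by finiteness) h2
  have e1 : (U.card : ℝ) = (disc x).card + 1 := by rw [hU, Finset.card_insert_of_notMem h0]; simp
  simp [ENNReal.toReal_mul, ENNReal.toReal_ofReal (by linarith : (0 : ℝ) ≤ s + 1),
    ENNReal.toReal_ofReal (by linarith : (0 : ℝ) ≤ s - 1)] at h1' h2'
  have p4 := Real.pi_le_four
  have p0 := Real.pi_pos
  rw [abs_le]
  constructor <;> nlinarith

theorem disc_card_le (x : ℕ) : ((disc x).card : ℝ) ≤ 18 * x := by
  rcases Nat.eq_zero_or_pos x with rfl | hx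
  · have : disc 0 = ∅ := Finset.eq_empty_of_forall_notMem fun a ha => by
      have h := mem_disc.1 ha; exact h.1 (nrm_eq_zero.1 (Nat.le_zero.1 h.2))
    simp [this]
  · have h := (abs_le.1 (disc_count hx)).2
    have hx1 : (1 : ℝ) ≤ x := by exact_mod_cast hx
    have := Real.pi_le_four
    have : Real.sqrt x ≤ x := by rw [Real.sqrt_le_iff]; constructor <;> nlinarith
    nlinarith

section Dyadic

variable {ι : Type*} {n : ι → ℕ} {f : ι → ℝ} {C : ℝ} {s : Finset ι}

/-- Partial summation against `1 / sqrt n`. -/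
theorem sum_div_sqrt_le (hn : ∀ a ∈ s, 1 ≤ n a) (hf : ∀ a ∈ s, 0 ≤ f a)
    (h : ∀ y : ℕ, ∑ a ∈ s with n a ≤ y, f a ≤ C * y) (x : ℕ) :
    ∑ a ∈ s with n a ≤ x, f a / Real.sqrt (n a) ≤ 8 * C * Real.sqrt x := by
  classical
  have h01 : ∑ a ∈ s with n a ≤ 1, f a ≤ C * (1 : ℕ) := h 1
  have hC : 0 ≤ C := by
    have := (Finset.sum_nonneg (f := f) (s := s.filter fun a => n a ≤ 1)
      (fun a ha => hf a (Finset.mem_filter.1 ha).1))
    push_cast at h01; linarith
  have pw : ∀ m : ℕ, ∑ a ∈ s with n a ≤ 4 ^ m, f a / Real.sqrt (n a) ≤ 4 * C * 2 ^ m := by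
    intro m
    induction m with
    | zero =>
      refine le_trans ?_ (show C * ((4 ^ 0 : ℕ) : ℝ) ≤ 4 * C * 2 ^ 0 by push_cast; linarith)
      refine le_trans (Finset.sum_le_sum fun a ha => ?_) (h _)
      rw [Finset.mem_filter] at ha
      exact div_le_self (hf a ha.1) (Real.one_le_sqrt.2 (by exact_mod_cast hn a ha.1))
    | succ m ih =>
      rw [← Finset.sum_filter_add_sum_filter_not (s.filter fun a => n a ≤ 4 ^ (m + 1))
        (fun a => n a ≤ 4 ^ m)]
      have e : (s.filter fun a => n a ≤ 4 ^ (m + 1)).filter (fun a => n a ≤ 4 ^ m) =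
          s.filter fun a => n a ≤ 4 ^ m := by
        ext a; simp only [Finset.mem_filter, pow_succ]; constructor <;> intro ha
        · exact ⟨ha.1.1, ha.2⟩
        · exact ⟨⟨ha.1, by omega⟩, ha.2⟩
      rw [e]
      have key : ∑ a ∈ (s.filter fun a => n a ≤ 4 ^ (m + 1)).filter (fun a => ¬ n a ≤ 4 ^ m),
          f a / Real.sqrt (n a) ≤ C * (4 : ℝ) ^ (m + 1) / 2 ^ m := by
        refine le_trans (Finset.sum_le_sum (g := fun a => f a / 2 ^ m) fun a ha => ?_) ?_
        · simp only [Finset.mem_filter, not_le] at ha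
          refine div_le_div_of_nonneg_left (hf a ha.1.1) (by positivity) ?_
          rw [Real.le_sqrt (by positivity) (Nat.cast_nonneg _), ← pow_mul, mul_comm, pow_mul]
          norm_num
          exact_mod_cast ha.2.le
        · rw [← Finset.sum_div]
          refine div_le_div_of_nonneg_right ?_ (by positivity)
          refine le_trans (Finset.sum_le_sum_of_subset_of_nonneg (Finset.filter_subset _ _)
            fun a ha _ => hf a (Finset.mem_filter.1 ha).1) ?_
          exact_mod_cast h (4 ^ (m + 1))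
      have e2 : C * (4 : ℝ) ^ (m + 1) / 2 ^ m = 4 * C * 2 ^ m := by
        rw [show (4 : ℝ) = 2 * 2 by norm_num, mul_pow]
        field_simp
        ring
      rw [pow_succ (2 : ℝ)]
      linarith [ih]
  rcases Nat.eq_zero_or_pos x with rfl | hx
  · rw [Finset.filter_eq_empty_iff.2 (fun a ha => by have := hn a ha; omega)]
    simp
  have h1 : x ≤ 4 ^ (Nat.log 4 x + 1) := (Nat.lt_pow_succ_log_self (by norm_num) x).le
  have h2 : (2 : ℝ) ^ Nat.log 4 x ≤ Real.sqrt x := by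
    rw [Real.le_sqrt (by positivity) (Nat.cast_nonneg _), ← pow_mul, mul_comm, pow_mul]
    norm_num
    exact_mod_cast Nat.pow_log_le_self 4 (by omega)
  calc ∑ a ∈ s with n a ≤ x, f a / Real.sqrt (n a)
      ≤ ∑ a ∈ s with n a ≤ 4 ^ (Nat.log 4 x + 1), f a / Real.sqrt (n a) := by
        refine Finset.sum_le_sum_of_subset_of_nonneg ?_ fun a ha _ =>
          div_nonneg (hf a (Finset.mem_filter.1 ha).1) (Real.sqrt_nonneg _)
        intro a ha
        simp only [Finset.mem_filter] at ha ⊢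
        exact ⟨ha.1, ha.2.trans h1⟩
    _ ≤ 4 * C * 2 ^ (Nat.log 4 x + 1) := pw _
    _ ≤ 8 * C * Real.sqrt x := by rw [pow_succ]; nlinarith

/-- Partial summation against `1 / n ^ 2`. -/
theorem sum_div_sq_le (hn : ∀ a ∈ s, 1 ≤ n a) (hf : ∀ a ∈ s, 0 ≤ f a)
    (h : ∀ y : ℕ, ∑ a ∈ s with n a ≤ y, f a ≤ C * y) :
    ∑ a ∈ s, f a / (n a : ℝ) ^ 2 ≤ 8 * C := by
  classical
  have h01 : ∑ a ∈ s with n a ≤ 1, f a ≤ C * (1 : ℕ) := h 1
  have hC : 0 ≤ C := by
    have := (Finset.sum_nonneg (f := f) (s := s.filter fun a => n a ≤ 1)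
      (fun a ha => hf a (Finset.mem_filter.1 ha).1))
    push_cast at h01; linarith
  have pw : ∀ m : ℕ, ∑ a ∈ s with n a ≤ 4 ^ m, f a / (n a : ℝ) ^ 2 ≤
      7 * C - 6 * C / 4 ^ m := by
    intro m
    induction m with
    | zero =>
      refine le_trans ?_ (show C * ((4 ^ 0 : ℕ) : ℝ) ≤ 7 * C - 6 * C / 4 ^ 0 by push_cast; linarith)
      refine le_trans (Finset.sum_le_sum fun a ha => ?_) (h _)
      rw [Finset.mem_filter] at ha
      exact div_le_self (hf a ha.1) (one_le_pow₀ (by exact_mod_cast hn a ha.1))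
    | succ m ih =>
      rw [← Finset.sum_filter_add_sum_filter_not (s.filter fun a => n a ≤ 4 ^ (m + 1))
        (fun a => n a ≤ 4 ^ m)]
      have e : (s.filter fun a => n a ≤ 4 ^ (m + 1)).filter (fun a => n a ≤ 4 ^ m) =
          s.filter fun a => n a ≤ 4 ^ m := by
        ext a; simp only [Finset.mem_filter, pow_succ]; constructor <;> intro ha
        · exact ⟨ha.1.1, ha.2⟩
        · exact ⟨⟨ha.1, by omega⟩, ha.2⟩
      rw [e]
      have key : ∑ a ∈ (s.filter fun a => n a ≤ 4 ^ (m + 1)).filter (fun a => ¬ n a ≤ 4 ^ m),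
          f a / (n a : ℝ) ^ 2 ≤ C * (4 : ℝ) ^ (m + 1) / ((4 : ℝ) ^ m) ^ 2 := by
        refine le_trans (Finset.sum_le_sum (g := fun a => f a / ((4 : ℝ) ^ m) ^ 2)
          fun a ha => ?_) ?_
        · simp only [Finset.mem_filter, not_le] at ha
          refine div_le_div_of_nonneg_left (hf a ha.1.1) (by positivity) ?_
          exact pow_le_pow_left₀ (by positivity) (by exact_mod_cast ha.2.le) 2
        · rw [← Finset.sum_div]
          refine div_le_div_of_nonneg_right ?_ (by positivity)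
          refine le_trans (Finset.sum_le_sum_of_subset_of_nonneg (Finset.filter_subset _ _)
            fun a ha _ => hf a (Finset.mem_filter.1 ha).1) ?_
          exact_mod_cast h (4 ^ (m + 1))
      have e2 : C * (4 : ℝ) ^ (m + 1) / ((4 : ℝ) ^ m) ^ 2 = 4 * C / 4 ^ m := by
        field_simp
        ring
      have e3 : 6 * C / (4 : ℝ) ^ (m + 1) = (3 / 2) * (C / 4 ^ m) := by
        field_simp; ring
      have e4 : 0 ≤ C / (4 : ℝ) ^ m := by positivity
      have e5 : 6 * C / (4 : ℝ) ^ m = 6 * (C / 4 ^ m) := by ring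
      have e6 : 4 * C / (4 : ℝ) ^ m = 4 * (C / 4 ^ m) := by ring
      rw [e3]
      linarith [ih]
  obtain ⟨m, hm⟩ : ∃ m, ∀ a ∈ s, n a ≤ 4 ^ m :=
    ⟨s.sup n, fun a ha => (Finset.le_sup ha).trans (Nat.lt_pow_self (by norm_num)).le⟩
  have h2 := pw m
  rw [Finset.filter_true_of_mem hm] at h2
  have : 0 ≤ 6 * C / (4 : ℝ) ^ m := by positivity
  linarith

end Dyadic

end Vale.Agent.P015.Moat
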