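import Vale.Agent.P015.Moat.Lattice

/-!
Chebyshev and Mertens bounds for Gaussian primes.
-/

open Finset
open GaussianInt (toComplex)

noncomputable section

namespace Vale.Agent.P015.Moat

/-- The representative of an associate class in the first quadrant. -/
def canon (a : GaussianInt) : Prop := 0 < a.re ∧ 0 ≤ a.im

theorem exists_canon {a : GaussianInt} (ha : a ≠ 0) : ∃ b, Associated b a ∧ canon b := by
  have hne : a.re ≠ 0 ∨ a.im ≠ 0 := by
    by_contra h
    simp only [not_or, ne_eq, not_not] at h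
    exact ha (Zsqrtd.ext h.1 h.2)
  have hI : IsUnit (⟨0, 1⟩ : GaussianInt) :=
    (Zsqrtd.norm_eq_one_iff' (by norm_num) _).1 (by simp [Zsqrtd.norm_def])
  rcases lt_trichotomy a.re 0 with h | h | h <;> rcases lt_trichotomy a.im 0 with h' | h' | h'
  · refine ⟨-a, (Associated.refl a).neg_left, ?_⟩; constructor <;> simp <;> omega
  · refine ⟨-a, (Associated.refl a).neg_left, ?_⟩; constructor <;> simp <;> omega
  · refine ⟨-(a * ⟨0, 1⟩), ((associated_mul_unit_left a _ hI)).neg_left, ?_⟩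
    constructor <;> simp <;> omega
  · refine ⟨a * ⟨0, 1⟩, associated_mul_unit_left a _ hI, ?_⟩
    constructor <;> simp <;> omega
  · omega
  · refine ⟨-(a * ⟨0, 1⟩), ((associated_mul_unit_left a _ hI)).neg_left, ?_⟩
    constructor <;> simp <;> omega
  · refine ⟨a * ⟨0, 1⟩, associated_mul_unit_left a _ hI, ?_⟩
    constructor <;> simp <;> omega
  · exact ⟨a, Associated.refl a, h, by omega⟩
  · exact ⟨a, Associated.refl a, h, by omega⟩

theorem nrm_eq_one_iff {u : GaussianInt} : nrm u = 1 ↔ IsUnit u := Zsqrtd.norm_eq_one_iff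

theorem canon_unique {a b : GaussianInt} (h : Associated a b) (ha : canon a) (hb : canon b) : a = b := by
  obtain ⟨u, rfl⟩ := h
  have h1 : (nrm (u : GaussianInt) : ℤ) = 1 := by exact_mod_cast nrm_eq_one_iff.2 u.isUnit
  rw [nrm_eq] at h1
  obtain ⟨ha1, ha2⟩ := ha
  obtain ⟨hb1, hb2⟩ := hb
  simp only [Zsqrtd.re_mul, Zsqrtd.im_mul] at hb1 hb2
  have h3 : (u : GaussianInt).re ≤ 1 ∧ -1 ≤ (u : GaussianInt).re ∧ (u : GaussianInt).im ≤ 1 ∧ -1 ≤ (u : GaussianInt).im := by
    refine ⟨?_, ?_, ?_, ?_⟩ <;> nlinarith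
  obtain ⟨c1, c2, c3, c4⟩ := h3
  have key : (u : GaussianInt) = 1 := by
    have : (u : GaussianInt).re = 1 ∧ (u : GaussianInt).im = 0 := by
      generalize (u : GaussianInt).re = x at *
      generalize (u : GaussianInt).im = y at *
      interval_cases x <;> interval_cases y <;> simp_all <;> omega
    exact Zsqrtd.ext this.1 this.2
  rw [key, mul_one]

theorem two_le_nrm {p : GaussianInt} (hp : Prime p) : 2 ≤ nrm p := by
  have h1 := one_le_nrm hp.ne_zero
  have h2 : nrm p ≠ 1 := fun e => hp.not_isUnit (nrm_eq_one_iff.1 e)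
  omega

theorem nrm_eq_of_assoc {a b : GaussianInt} (h : Associated a b) : nrm a = nrm b := by
  obtain ⟨u, rfl⟩ := h
  rw [nrm_mul, nrm_eq_one_iff.2 u.isUnit, mul_one]

open Classical in
/-- Canonical Gaussian primes of norm at most `x`. -/
def prm (x : ℕ) : Finset GaussianInt := (disc x).filter fun p => Prime p ∧ canon p

theorem mem_prm {x : ℕ} {p : GaussianInt} : p ∈ prm x ↔ Prime p ∧ canon p ∧ nrm p ≤ x := by
  simp only [prm, Finset.mem_filter, mem_disc]
  exact ⟨fun h => ⟨h.2.1, h.2.2, h.1.2⟩, fun h => ⟨⟨h.1.ne_zero, h.2.2⟩, h.1, h.2.1⟩⟩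

theorem prm_mono {x y : ℕ} (h : x ≤ y) : prm x ⊆ prm y := by
  intro p hp
  rw [mem_prm] at hp ⊢
  exact ⟨hp.1, hp.2.1, hp.2.2.trans h⟩

theorem prm_filter {x y : ℕ} (h : y ≤ x) : (prm x).filter (fun p => nrm p ≤ y) = prm y := by
  ext p
  simp only [Finset.mem_filter, mem_prm]
  constructor
  · rintro ⟨⟨a, b, _⟩, c⟩; exact ⟨a, b, c⟩
  · rintro ⟨a, b, c⟩; exact ⟨⟨a, b, c.trans h⟩, c⟩

theorem prm_eq_of_dvd {x : ℕ} {p q : GaussianInt} (hp : p ∈ prm x) (hq : q ∈ prm x) (h : p ∣ q) :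
    p = q :=
  canon_unique ((mem_prm.1 hp).1.associated_of_dvd (mem_prm.1 hq).1 h) (mem_prm.1 hp).2.1
    (mem_prm.1 hq).2.1

theorem exists_rat_prime {π : GaussianInt} (hπ : Prime π) :
    ∀ n : ℕ, n ≠ 0 → π ∣ (n : GaussianInt) → ∃ p : ℕ, p.Prime ∧ p ∣ n ∧ π ∣ (p : GaussianInt) := by
  intro n
  induction n using induction_on_primes with
  | zero => intro h; exact absurd rfl h
  | one => intro _ h; rw [Nat.cast_one] at h; exact absurd (isUnit_of_dvd_one h) hπ.not_isUnit
  | prime_mul p a hp ih =>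
    intro hn h
    rw [Nat.cast_mul] at h
    rcases hπ.dvd_or_dvd h with h | h
    · exact ⟨p, hp, dvd_mul_right _ _, h⟩
    · obtain ⟨q, hq1, hq2, hq3⟩ := ih (fun e => hn (by simp [e])) h
      exact ⟨q, hq1, hq2.mul_left _, hq3⟩

theorem dvd_nrm (a : GaussianInt) : a ∣ (nrm a : GaussianInt) := by
  rw [nrm, GaussianInt.natCast_natAbs_norm, Zsqrtd.norm_eq_mul_conj]
  exact dvd_mul_right _ _

theorem nrm_natCast (p : ℕ) : nrm (p : GaussianInt) = p * p := by
  simp [nrm, Zsqrtd.norm_def, Int.natAbs_mul]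

theorem theta_gauss (y : ℕ) :
    ∑ π ∈ prm y, Real.log (nrm π) ≤ 2 * Chebyshev.theta y := by
  classical
  have hex : ∀ π ∈ prm y, ∃ p : ℕ, p.Prime ∧ p ≤ y ∧ π ∣ (p : GaussianInt) := by
    intro π hπ
    obtain ⟨h1, _, h3⟩ := mem_prm.1 hπ
    have h0 : nrm π ≠ 0 := fun e => h1.ne_zero (nrm_eq_zero.1 e)
    obtain ⟨p, hp, hp', hd⟩ := exists_rat_prime h1 _ h0 (dvd_nrm π)
    exact ⟨p, hp, (Nat.le_of_dvd (Nat.pos_of_ne_zero h0) hp').trans h3, hd⟩
  choose! f hf using hex
  rw [← Finset.sum_fiberwise_of_maps_to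
    (t := (Finset.Ioc 0 y).filter Nat.Prime) (g := f)]
  · rw [Chebyshev.theta, Nat.floor_natCast, Finset.mul_sum]
    refine Finset.sum_le_sum fun p hp => ?_
    rw [Finset.mem_filter] at hp
    have hd : (∏ π ∈ prm y with f π = p, π) ∣ (p : GaussianInt) := by
      refine Finset.prod_dvd_of_coprime ?_ ?_
      · intro a ha b hb hab
        simp only [Finset.coe_filter, Set.mem_ofPred_eq] at ha hb
        exact (mem_prm.1 ha.1).1.coprime_iff_not_dvd.2
          fun h => hab (prm_eq_of_dvd ha.1 hb.1 h)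
      · intro a ha
        rw [Finset.mem_filter] at ha
        rw [← ha.2]; exact (hf a ha.1).2.2
    obtain ⟨c, hc⟩ := hd
    have hn := congrArg nrm hc
    rw [nrm_natCast, nrm_mul] at hn
    have hprod : nrm (∏ π ∈ prm y with f π = p, π) = ∏ π ∈ prm y with f π = p, nrm π :=
      map_prod (⟨⟨nrm, nrm_one⟩, nrm_mul⟩ : GaussianInt →* ℕ) _ _
    rw [hprod] at hn
    have hle : (∏ π ∈ prm y with f π = p, nrm π) ≤ p * p :=
      Nat.le_of_dvd (Nat.mul_pos hp.2.pos hp.2.pos) ⟨_, hn⟩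
    have hpos : ∀ π ∈ (prm y).filter (fun π => f π = p), (nrm π : ℝ) ≠ 0 := by
      intro π hπ
      exact_mod_cast fun e => (mem_prm.1 (Finset.mem_filter.1 hπ).1).1.ne_zero (nrm_eq_zero.1 e)
    rw [← Real.log_prod hpos]
    have hp0 : (p : ℝ) ≠ 0 := by exact_mod_cast hp.2.ne_zero
    rw [two_mul, ← Real.log_mul hp0 hp0]
    refine Real.log_le_log ?_ (by exact_mod_cast hle)
    exact Finset.prod_pos fun π hπ => lt_of_le_of_ne (Nat.cast_nonneg _) (hpos π hπ).symm
  · intro π hπ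
    obtain ⟨h1, h2, _⟩ := hf π hπ
    simp [h1, h2, h1.pos]

theorem log_nrm_nonneg (a : GaussianInt) : 0 ≤ Real.log (nrm a) := Real.log_natCast_nonneg _

theorem theta_le (x y : ℕ) :
    ∑ π ∈ prm x with nrm π ≤ y, Real.log (nrm π) ≤ 4 * (y : ℝ) := by
  have h4 : Real.log 4 ≤ 2 := by
    have := Real.log_two_lt_d9
    rw [show (4 : ℝ) = 2 ^ 2 by norm_num, Real.log_pow]; push_cast; linarith
  have h5 : ∑ π ∈ prm x with nrm π ≤ y, Real.log (nrm π) ≤ ∑ π ∈ prm y, Real.log (nrm π) := by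
    refine Finset.sum_le_sum_of_subset_of_nonneg ?_ fun a _ _ => log_nrm_nonneg a
    intro p hp
    rw [Finset.mem_filter, mem_prm] at hp
    exact mem_prm.2 ⟨hp.1.1, hp.1.2.1, hp.2⟩
  have h6 := Chebyshev.theta_le_log4_mul_x (Nat.cast_nonneg y : (0 : ℝ) ≤ y)
  have h7 := theta_gauss y
  have : (0 : ℝ) ≤ y := Nat.cast_nonneg y
  nlinarith

theorem log_eq_sum (x : ℕ) : ∀ a : GaussianInt, a ≠ 0 → nrm a ≤ x →
    Real.log (nrm a) = ∑ π ∈ prm x, (multiplicity π a : ℝ) * Real.log (nrm π) := by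
  intro a
  induction a using UniqueFactorizationMonoid.induction_on_prime with
  | h₁ => intro h; exact absurd rfl h
  | h₂ u hu =>
    intro _ _
    rw [nrm_eq_one_iff.2 hu, Nat.cast_one, Real.log_one]
    refine (Finset.sum_eq_zero fun π hπ => ?_).symm
    rw [multiplicity_eq_zero.2 fun h => (mem_prm.1 hπ).1.not_isUnit (isUnit_of_dvd_unit h hu)]
    simp
  | h₃ b q hb hq ih =>
    intro _ hle
    rw [nrm_mul] at hle
    have hb1 := one_le_nrm hb
    have hq1 := two_le_nrm hq
    have hbx : nrm b ≤ x := by nlinarith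
    have hqx : nrm q ≤ x := by nlinarith
    obtain ⟨q0, hq0, hc⟩ := exists_canon hq.ne_zero
    have hq0m : q0 ∈ prm x :=
      mem_prm.2 ⟨hq0.symm.prime hq, hc, by rwa [nrm_eq_of_assoc hq0]⟩
    rw [nrm_mul, Nat.cast_mul, Real.log_mul (by positivity) (by positivity), ih hb hbx]
    have e : ∀ π ∈ prm x, (multiplicity π (q * b) : ℝ) * Real.log (nrm π) =
        (if π = q0 then Real.log (nrm q) else 0) +
          (multiplicity π b : ℝ) * Real.log (nrm π) := by
      intro π hπ
      have hp := (mem_prm.1 hπ).1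
      rw [multiplicity_mul hp (FiniteMultiplicity.of_prime_left hp (mul_ne_zero hq.ne_zero hb))]
      by_cases h : π = q0
      · subst h
        have h1 : multiplicity π q = 1 := by
          refine multiplicity_eq_of_dvd_of_not_dvd (by rw [pow_one]; exact hq0.dvd) ?_
          intro h2
          rw [pow_two] at h2
          have h3 := h2.trans hq0.symm.dvd
          have h4 : π ∣ 1 := (mul_dvd_mul_iff_left hp.ne_zero).1 (by rwa [mul_one])
          exact hp.not_isUnit (isUnit_of_dvd_one h4)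
        rw [h1, if_pos rfl, nrm_eq_of_assoc hq0]
        push_cast
        ring
      · have h1 : multiplicity π q = 0 := multiplicity_eq_zero.2 fun hd =>
          h (canon_unique ((hp.associated_of_dvd hq hd).trans hq0.symm) (mem_prm.1 hπ).2.1 hc)
        rw [h1, if_neg h]
        simp
    rw [Finset.sum_congr rfl e, Finset.sum_add_distrib, Finset.sum_ite_eq', if_pos hq0m]

open Classical in
theorem log_eq_sum_pow {x : ℕ} {a : GaussianInt} (ha : a ∈ disc x) :
    Real.log (nrm a) =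
      ∑ π ∈ prm x, ∑ k ∈ Finset.Icc 1 x, if π ^ k ∣ a then Real.log (nrm π) else 0 := by
  obtain ⟨h0, hle⟩ := mem_disc.1 ha
  rw [log_eq_sum x a h0 hle]
  refine Finset.sum_congr rfl fun π hπ => ?_
  have hp := (mem_prm.1 hπ).1
  have hfin := FiniteMultiplicity.of_prime_left hp h0
  have hmx : multiplicity π a ≤ x := by
    obtain ⟨c, hc⟩ := pow_multiplicity_dvd π a
    have h1 := congrArg nrm hc
    rw [nrm_mul, nrm_pow] at h1
    have hc0 : c ≠ 0 := fun e => h0 (by rw [hc, e, mul_zero])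
    have h2 := one_le_nrm hc0
    have h3 : 2 ^ multiplicity π a ≤ nrm π ^ multiplicity π a :=
      Nat.pow_le_pow_left (two_le_nrm hp) _
    have h4 := Nat.lt_two_pow_self (n := multiplicity π a)
    nlinarith
  rw [← Finset.sum_filter, Finset.sum_const, nsmul_eq_mul]
  congr 2
  have : (Finset.Icc 1 x).filter (fun k => π ^ k ∣ a) = Finset.Icc 1 (multiplicity π a) := by
    ext k
    simp only [Finset.mem_filter, Finset.mem_Icc, hfin.pow_dvd_iff_le_multiplicity]
    omega
  rw [this, Nat.card_Icc]; simp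

open Classical in
theorem card_multiples {x : ℕ} {m : GaussianInt} (hm : m ≠ 0) :
    ((disc x).filter fun a => m ∣ a).card = (disc (x / nrm m)).card := by
  have hpos : 0 < nrm m := one_le_nrm hm
  symm
  refine Finset.card_bij (fun b _ => m * b) ?_ ?_ ?_
  · intro b hb
    obtain ⟨h0, h1⟩ := mem_disc.1 hb
    rw [Finset.mem_filter, mem_disc, nrm_mul]
    refine ⟨⟨mul_ne_zero hm h0, ?_⟩, dvd_mul_right _ _⟩
    calc nrm m * nrm b ≤ nrm m * (x / nrm m) := Nat.mul_le_mul_left _ h1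
      _ ≤ x := Nat.mul_div_le _ _
  · intro b _ b' _ h; exact mul_left_cancel₀ hm h
  · intro a ha
    rw [Finset.mem_filter, mem_disc] at ha
    obtain ⟨⟨h0, h1⟩, b, rfl⟩ := ha
    refine ⟨b, mem_disc.2 ⟨right_ne_zero_of_mul h0, ?_⟩, rfl⟩
    rw [nrm_mul] at h1
    rw [Nat.le_div_iff_mul_le hpos, mul_comm]
    exact h1

theorem geom_le {r : ℝ} (h0 : 0 ≤ r) (h : r ≤ 1 / 2) (x : ℕ) :
    ∑ k ∈ Finset.Icc 2 x, r ^ k ≤ 2 * r ^ 2 := by
  have key : ∀ x, 1 ≤ x → ∑ k ∈ Finset.Icc 2 x, r ^ k ≤ 2 * r ^ 2 - 2 * r ^ (x + 1) := by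
    intro x hx
    induction x, hx using Nat.le_induction with
    | base => simp
    | succ n hn ih =>
      rw [Finset.sum_Icc_succ_top (by omega)]
      have : r ^ (n + 1 + 1) = r ^ (n + 1) * r := pow_succ r (n + 1)
      have hr : r ^ (n + 1) * r ≤ r ^ (n + 1) * (1 / 2) :=
        mul_le_mul_of_nonneg_left h (pow_nonneg h0 _)
      linarith
  rcases Nat.eq_zero_or_pos x with rfl | hx
  · simp; positivity
  · have := key x hx
    have : 0 ≤ r ^ (x + 1) := pow_nonneg h0 _
    linarith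

theorem disc_div_approx {x m : ℕ} (hm : 1 ≤ m) (hmx : m ≤ x) :
    |((disc (x / m)).card : ℝ) - Real.pi * ((x : ℝ) / m)| ≤ 18 * (Real.sqrt x / Real.sqrt m) := by
  have hm' : (0 : ℝ) < m := by exact_mod_cast hm
  have hq : 1 ≤ x / m := (Nat.one_le_div_iff (by omega)).2 hmx
  have h := abs_le.1 (disc_count hq)
  have a1 : ((x / m : ℕ) : ℝ) ≤ (x : ℝ) / m := Nat.cast_div_le
  have a2 : (x : ℝ) / m ≤ ((x / m : ℕ) : ℝ) + 1 := by
    rw [div_le_iff₀ hm']
    have := Nat.lt_div_mul_add (a := x) (show 0 < m by omega)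
    have h' : (x : ℝ) ≤ ((x / m * m + m : ℕ) : ℝ) := by exact_mod_cast this.le
    push_cast at h'
    linarith
  have hs : Real.sqrt ((x / m : ℕ) : ℝ) ≤ Real.sqrt x / Real.sqrt m := by
    rw [← Real.sqrt_div (Nat.cast_nonneg x)]; exact Real.sqrt_le_sqrt a1
  have h1 : 1 ≤ Real.sqrt x / Real.sqrt m := by
    refine le_trans ?_ hs
    rw [Real.one_le_sqrt]; exact_mod_cast hq
  have p4 := Real.pi_le_four
  have p0 := Real.pi_pos
  rw [abs_le]
  constructor <;> nlinarith

/-- The sum `∑ log N(π) / N(π)` over primes of norm at most `x`. -/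
def S (x : ℕ) : ℝ := ∑ π ∈ prm x, Real.log (nrm π) / nrm π

theorem log_total_sub (x : ℕ) (hx : 1 ≤ x) :
    |∑ a ∈ disc x, Real.log (nrm a) - Real.pi * x * Real.log x| ≤ 400 * x := by
  have hx1 : (1 : ℝ) ≤ x := by exact_mod_cast hx
  have hl : 0 ≤ Real.log x := Real.log_nonneg hx1
  have hsl : Real.sqrt x * Real.log x ≤ 2 * x := by
    have h := Real.log_le_rpow_div (Nat.cast_nonneg x) (show (0 : ℝ) < 1 / 2 by norm_num)
    rw [← Real.sqrt_eq_rpow] at h
    have := Real.mul_self_sqrt (Nat.cast_nonneg x : (0 : ℝ) ≤ x)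
    nlinarith [Real.sqrt_nonneg (x : ℝ)]
  have hF := abs_le.1 (disc_count hx)
  have hup : ∀ a ∈ disc x, Real.log (nrm a) ≤ Real.log x := by
    intro a ha
    obtain ⟨h0, h1⟩ := mem_disc.1 ha
    exact Real.log_le_log (by exact_mod_cast one_le_nrm h0) (by exact_mod_cast h1)
  have hdef : ∀ a ∈ disc x, Real.log x - Real.log (nrm a) ≤
      2 * Real.sqrt x * (1 / Real.sqrt (nrm a)) := by
    intro a ha
    obtain ⟨h0, h1⟩ := mem_disc.1 ha
    have hn : (0 : ℝ) < nrm a := by exact_mod_cast one_le_nrm h0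
    rw [← Real.log_div (by positivity) hn.ne']
    have h := Real.log_le_rpow_div (show (0 : ℝ) ≤ (x : ℝ) / nrm a by positivity)
      (show (0 : ℝ) < 1 / 2 by norm_num)
    rw [← Real.sqrt_eq_rpow, Real.sqrt_div (Nat.cast_nonneg x)] at h
    calc _ ≤ Real.sqrt x / Real.sqrt (nrm a) / (1 / 2) := h
      _ = _ := by ring
  have hsum := Finset.sum_le_sum hdef
  rw [Finset.sum_sub_distrib, Finset.sum_const, nsmul_eq_mul, ← Finset.mul_sum] at hsum
  have hd := sum_div_sqrt_le (n := nrm) (f := fun _ => (1 : ℝ)) (C := 18) (s := disc x)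
    (fun a ha => one_le_nrm (mem_disc.1 ha).1) (fun _ _ => zero_le_one) (fun y => by
      refine le_trans ?_ (disc_card_le y)
      rw [Finset.sum_const, nsmul_eq_mul, mul_one, Nat.cast_le]
      refine Finset.card_le_card fun a ha => ?_
      rw [Finset.mem_filter, mem_disc] at ha
      exact mem_disc.2 ⟨ha.1.1, ha.2⟩) x
  rw [Finset.filter_true_of_mem fun a ha => (mem_disc.1 ha).2] at hd
  have hup' := Finset.sum_le_sum hup
  rw [Finset.sum_const, nsmul_eq_mul] at hup'
  have hxx := Real.mul_self_sqrt (Nat.cast_nonneg x : (0 : ℝ) ≤ x)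
  have h2 : 2 * Real.sqrt x * ∑ a ∈ disc x, 1 / Real.sqrt (nrm a) ≤ 288 * x := by
    have := mul_le_mul_of_nonneg_left hd (show (0 : ℝ) ≤ 2 * Real.sqrt x by positivity)
    nlinarith
  have h3 : |((disc x).card : ℝ) * Real.log x - Real.pi * x * Real.log x| ≤ 28 * x := by
    rw [← sub_mul, abs_mul, abs_of_nonneg hl]
    have := mul_le_mul_of_nonneg_right (abs_le.2 hF) hl
    linarith
  have h4 := abs_le.1 h3
  rw [abs_le]
  constructor <;> linarith

open Classical in
theorem S_approx {x : ℕ} (hx : 1 ≤ x) : |S x - Real.log x| ≤ 1000 := by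
  have hT := log_total_sub x hx
  have hTeq : ∑ a ∈ disc x, Real.log (nrm a) = ∑ π ∈ prm x, ∑ k ∈ Finset.Icc 1 x,
      Real.log (nrm π) * ((disc (x / nrm π ^ k)).card : ℝ) := by
    rw [Finset.sum_congr rfl fun a ha => log_eq_sum_pow ha, Finset.sum_comm]
    refine Finset.sum_congr rfl fun π hπ => ?_
    rw [Finset.sum_comm]
    refine Finset.sum_congr rfl fun k _ => ?_
    rw [← Finset.sum_filter, Finset.sum_const, nsmul_eq_mul,
      card_multiples (pow_ne_zero k (mem_prm.1 hπ).1.ne_zero), nrm_pow]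
    ring
  have hterm : ∀ π ∈ prm x,
      |∑ k ∈ Finset.Icc 1 x, Real.log (nrm π) * ((disc (x / nrm π ^ k)).card : ℝ) -
        Real.pi * x * (Real.log (nrm π) / nrm π)| ≤
      18 * Real.sqrt x * (Real.log (nrm π) / Real.sqrt (nrm π)) +
        36 * x * (Real.log (nrm π) / (nrm π : ℝ) ^ 2) := by
    intro π hπ
    obtain ⟨hp, _, hpx⟩ := mem_prm.1 hπ
    have h2 : (2 : ℝ) ≤ nrm π := by exact_mod_cast two_le_nrm hp
    have hl := log_nrm_nonneg π
    have hsplit : Finset.Icc 1 x = insert 1 (Finset.Icc 2 x) := by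
      ext k; simp only [Finset.mem_insert, Finset.mem_Icc]; omega
    rw [hsplit, Finset.sum_insert (by simp), pow_one]
    have hmain := abs_le.1 (disc_div_approx (x := x) (by linarith [two_le_nrm hp]) hpx)
    have htail : ∑ k ∈ Finset.Icc 2 x, Real.log (nrm π) * ((disc (x / nrm π ^ k)).card : ℝ) ≤
        36 * x * (Real.log (nrm π) / (nrm π : ℝ) ^ 2) := by
      calc _ ≤ ∑ k ∈ Finset.Icc 2 x, Real.log (nrm π) * (18 * x) * (1 / (nrm π : ℝ)) ^ k := by
            refine Finset.sum_le_sum fun k _ => ?_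
            rw [mul_assoc (Real.log _)]
            refine mul_le_mul_of_nonneg_left ?_ hl
            refine (disc_card_le _).trans ?_
            rw [one_div, inv_pow, ← div_eq_mul_inv, mul_div_assoc]
            refine mul_le_mul_of_nonneg_left ?_ (by norm_num)
            exact le_trans Nat.cast_div_le (by push_cast; exact le_rfl)
        _ ≤ Real.log (nrm π) * (18 * x) * (2 * (1 / (nrm π : ℝ)) ^ 2) := by
            rw [← Finset.mul_sum]
            refine mul_le_mul_of_nonneg_left (geom_le (by positivity) ?_ x) (by positivity)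
            rw [div_le_div_iff₀ (by linarith) (by norm_num)]; linarith
        _ = _ := by ring
    have htail0 : 0 ≤ ∑ k ∈ Finset.Icc 2 x,
        Real.log (nrm π) * ((disc (x / nrm π ^ k)).card : ℝ) :=
      Finset.sum_nonneg fun k _ => by positivity
    have e1 := mul_le_mul_of_nonneg_left hmain.1 hl
    have e2 := mul_le_mul_of_nonneg_left hmain.2 hl
    have e3 : Real.log (nrm π) * (Real.pi * ((x : ℝ) / nrm π)) =
        Real.pi * x * (Real.log (nrm π) / nrm π) := by ring
    have e4 : Real.log (nrm π) * (18 * (Real.sqrt x / Real.sqrt (nrm π))) =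
        18 * Real.sqrt x * (Real.log (nrm π) / Real.sqrt (nrm π)) := by ring
    have e5 : 0 ≤ 36 * (x : ℝ) * (Real.log (nrm π) / (nrm π : ℝ) ^ 2) := by positivity
    rw [abs_le]
    constructor <;> linarith
  have hA := sum_div_sqrt_le (n := nrm) (f := fun π => Real.log (nrm π)) (C := 4) (s := prm x)
    (fun a ha => one_le_nrm (mem_prm.1 ha).1.ne_zero) (fun a _ => log_nrm_nonneg a) (theta_le x) x
  rw [Finset.filter_true_of_mem fun a ha => (mem_prm.1 ha).2.2] at hA
  have hB := sum_div_sq_le (n := nrm) (f := fun π => Real.log (nrm π)) (C := 4) (s := prm x)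
    (fun a ha => one_le_nrm (mem_prm.1 ha).1.ne_zero) (fun a _ => log_nrm_nonneg a) (theta_le x)
  have hdiff : |∑ a ∈ disc x, Real.log (nrm a) - Real.pi * x * S x| ≤ 2000 * x := by
    rw [hTeq, S, Finset.mul_sum, ← Finset.sum_sub_distrib]
    refine (Finset.abs_sum_le_sum_abs _ _).trans ((Finset.sum_le_sum hterm).trans ?_)
    rw [Finset.sum_add_distrib, ← Finset.mul_sum, ← Finset.mul_sum]
    have hxx := Real.mul_self_sqrt (Nat.cast_nonneg x : (0 : ℝ) ≤ x)
    have a1 := mul_le_mul_of_nonneg_left hA (show (0 : ℝ) ≤ 18 * Real.sqrt x by positivity)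
    have a2 := mul_le_mul_of_nonneg_left hB (show (0 : ℝ) ≤ 36 * x by positivity)
    nlinarith
  have hx0 : (1 : ℝ) ≤ x := by exact_mod_cast hx
  have h1 := abs_le.1 hT
  have h2 := abs_le.1 hdiff
  have hpi := Real.pi_gt_three
  rw [abs_le]
  constructor
  · by_contra hc
    push Not at hc
    nlinarith [mul_lt_mul_of_pos_left hc (show (0 : ℝ) < Real.pi * x by positivity)]
  · by_contra hc
    push Not at hc
    nlinarith [mul_lt_mul_of_pos_left hc (show (0 : ℝ) < Real.pi * x by positivity)]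

theorem S_diff {u x : ℕ} (h : u ≤ x) :
    S x = S u + ∑ π ∈ prm x with u < nrm π, Real.log (nrm π) / nrm π := by
  rw [S, S, ← Finset.sum_filter_add_sum_filter_not (prm x) (fun π => nrm π ≤ u), prm_filter h]
  simp only [not_le]

/-- A lower bound of Chebyshev type for the number of Gaussian primes. -/
theorem prm_count : ∃ c : ℝ, 0 < c ∧ ∃ x0 : ℕ, ∀ x : ℕ, x0 ≤ x →
    c * x / Real.log x ≤ ((prm x).card : ℝ) := by
  obtain ⟨K, hK⟩ := exists_nat_ge (Real.exp 2002)
  have hK0 : (0 : ℝ) < K := lt_of_lt_of_le (Real.exp_pos _) hK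
  have hK1 : (1 : ℝ) < K := lt_of_lt_of_le (Real.one_lt_exp_iff.2 (by norm_num)) hK
  have hKn : 0 < K := by exact_mod_cast hK0
  refine ⟨1 / K, by positivity, K, fun x hx => ?_⟩
  have hj : 1 ≤ x / K := (Nat.one_le_div_iff hKn).2 hx
  have hxK : (K : ℝ) ≤ x := by exact_mod_cast hx
  have hlx : 0 < Real.log x := Real.log_pos (by linarith)
  have hlK : 2002 ≤ Real.log K := by
    rw [Real.le_log_iff_exp_le hK0]; exact hK
  have hlj : Real.log ((x / K : ℕ) : ℝ) ≤ Real.log x - Real.log K := by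
    rw [← Real.log_div (by linarith) hK0.ne']
    exact Real.log_le_log (by exact_mod_cast hj) Nat.cast_div_le
  have h1 := abs_le.1 (S_approx (show 1 ≤ x by omega))
  have h2 := abs_le.1 (S_approx hj)
  have hsum : 1 ≤ ∑ π ∈ prm x with x / K < nrm π, Real.log (nrm π) / nrm π := by
    have := S_diff (Nat.div_le_self x K)
    linarith
  have hle : ∀ π ∈ (prm x).filter (fun π => x / K < nrm π),
      Real.log (nrm π) / nrm π ≤ Real.log x * K / x := by
    intro π hπ
    rw [Finset.mem_filter, mem_prm] at hπ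
    have hn : (0 : ℝ) < nrm π := by exact_mod_cast one_le_nrm hπ.1.1.ne_zero
    have hl : Real.log (nrm π) ≤ Real.log x :=
      Real.log_le_log hn (by exact_mod_cast hπ.1.2.2)
    have hnx : (x : ℝ) ≤ nrm π * K := by
      exact_mod_cast ((Nat.div_lt_iff_lt_mul hKn).1 hπ.2).le
    rw [div_le_div_iff₀ hn (by linarith)]
    nlinarith [mul_le_mul hl hnx (by linarith : (0 : ℝ) ≤ x) hlx.le]
  have hs := hsum.trans (Finset.sum_le_card_nsmul _ _ _ hle)
  rw [nsmul_eq_mul] at hs
  have hc : (((prm x).filter (fun π => x / K < nrm π)).card : ℝ) ≤ (prm x).card := by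
    exact_mod_cast Finset.card_filter_le _ _
  have hs2 : 1 ≤ ((prm x).card : ℝ) * (Real.log x * K / x) :=
    hs.trans (mul_le_mul_of_nonneg_right hc (by positivity))
  have hx0 : (0 : ℝ) < x := by linarith
  rw [mul_div_assoc', le_div_iff₀ hx0] at hs2
  rw [div_le_iff₀ hlx, div_mul_eq_mul_div, div_le_iff₀ hK0]
  nlinarith

/-- Reciprocal norms in a band `(w, w ^ 4 ^ J]` sum to at least `J / 2`. -/
theorem band_sum : ∃ w0 : ℕ, ∀ w : ℕ, w0 ≤ w → ∀ J : ℕ,
    (J : ℝ) / 2 ≤ ∑ π ∈ prm (w ^ 4 ^ J) with w < nrm π, 1 / (nrm π : ℝ) := by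
  obtain ⟨w0, hw0⟩ := exists_nat_ge (Real.exp 2000)
  have one : ∀ v : ℕ, w0 ≤ v → 2 ≤ v →
      (1 : ℝ) / 2 ≤ ∑ π ∈ prm (v ^ 4) with v < nrm π, 1 / (nrm π : ℝ) := by
    intro v hv hv2
    have hvR : Real.exp 2000 ≤ v := hw0.trans (by exact_mod_cast hv)
    have hlv : 2000 ≤ Real.log v := by
      rw [Real.le_log_iff_exp_le (by positivity)]; exact hvR
    have h4 : v ≤ v ^ 4 := Nat.le_self_pow (by norm_num) v
    have h1 := abs_le.1 (S_approx (show 1 ≤ v ^ 4 by omega))
    have h2 := abs_le.1 (S_approx (show 1 ≤ v by omega))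
    have hlog : Real.log ((v ^ 4 : ℕ) : ℝ) = 4 * Real.log v := by
      push_cast; rw [Real.log_pow]; norm_num
    have hS := S_diff h4
    have hsum : 2 * Real.log v ≤ ∑ π ∈ prm (v ^ 4) with v < nrm π, Real.log (nrm π) / nrm π := by
      linarith
    have hle : ∑ π ∈ prm (v ^ 4) with v < nrm π, Real.log (nrm π) / nrm π ≤
        4 * Real.log v * ∑ π ∈ prm (v ^ 4) with v < nrm π, 1 / (nrm π : ℝ) := by
      rw [Finset.mul_sum]
      refine Finset.sum_le_sum fun π hπ => ?_
      rw [Finset.mem_filter, mem_prm] at hπ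
      rw [mul_one_div]
      refine div_le_div_of_nonneg_right ?_ (Nat.cast_nonneg _)
      rw [← hlog]
      exact Real.log_le_log (by exact_mod_cast one_le_nrm hπ.1.1.ne_zero)
        (by exact_mod_cast hπ.1.2.2)
    nlinarith
  refine ⟨w0 + 2, fun w hw J => ?_⟩
  induction J with
  | zero => simp only [Nat.cast_zero, zero_div]; positivity
  | succ J ih =>
    set v := w ^ 4 ^ J with hv
    have hwv : w ≤ v := Nat.le_self_pow (by positivity) w
    have hvv : v ≤ v ^ 4 := Nat.le_self_pow (by norm_num) v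
    have e : w ^ 4 ^ (J + 1) = v ^ 4 := by rw [hv, ← pow_mul, pow_succ]
    rw [e, ← Finset.sum_filter_add_sum_filter_not ((prm (v ^ 4)).filter fun π => w < nrm π)
      (fun π => nrm π ≤ v), Finset.filter_filter, Finset.filter_filter]
    have e1 : (prm (v ^ 4)).filter (fun π => w < nrm π ∧ nrm π ≤ v) =
        (prm v).filter fun π => w < nrm π := by
      rw [← prm_filter hvv, Finset.filter_filter]
      exact Finset.filter_congr fun π _ => and_comm
    have e2 : (prm (v ^ 4)).filter (fun π => w < nrm π ∧ ¬ nrm π ≤ v) =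
        (prm (v ^ 4)).filter fun π => v < nrm π :=
      Finset.filter_congr fun π _ => by constructor <;> intro h <;> omega
    rw [e1, e2]
    have := one v (by omega) (by omega)
    push_cast
    linarith

end Vale.Agent.P015.Moat
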