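import Vale.Agent.P015.Moat.Mertens

/-!
An upper bound sieve of Brun type for tuples of Gaussian integers.
-/

open Finset
open GaussianInt (toComplex)

noncomputable section

namespace Vale.Agent.P015.Moat

attribute [local instance] Classical.propDecidable

/-- The square of lattice points with both coordinates in `[0, M)`. -/
def box (M : ℕ) : Finset GaussianInt :=
  (Finset.range M ×ˢ Finset.range M).image fun p => ⟨(p.1 : ℤ), (p.2 : ℤ)⟩

theorem mem_box {M : ℕ} {a : GaussianInt} :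
    a ∈ box M ↔ (0 ≤ a.re ∧ a.re < M) ∧ (0 ≤ a.im ∧ a.im < M) := by
  simp only [box, Finset.mem_image, Finset.mem_product, Finset.mem_range]
  constructor
  · rintro ⟨⟨u, v⟩, ⟨hu, hv⟩, rfl⟩
    simp only
    omega
  · rintro ⟨⟨h1, h2⟩, h3, h4⟩
    refine ⟨(a.re.toNat, a.im.toNat), ⟨by omega, by omega⟩, ?_⟩
    exact Zsqrtd.ext (by simp [h1]) (by simp [h3])

theorem card_box (M : ℕ) : (box M).card = M * M := by
  rw [box, Finset.card_image_of_injective _ (fun p q h => ?_), Finset.card_product,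
    Finset.card_range]
  rw [Zsqrtd.ext_iff] at h
  simp only at h
  exact Prod.ext (by exact_mod_cast h.1) (by exact_mod_cast h.2)

/-- Invariance under translation by multiples of `n`. -/
def Per (n : ℕ) (P : GaussianInt → Prop) : Prop := ∀ x y : GaussianInt, P (x + (n : GaussianInt) * y) ↔ P x

/-- Number of points of the box satisfying `P`. -/
def cnt (M : ℕ) (P : GaussianInt → Prop) : ℕ := ((box M).filter P).card

theorem cnt_congr (M : ℕ) {P Q : GaussianInt → Prop} (h : ∀ x, P x ↔ Q x) : cnt M P = cnt M Q := by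
  rw [cnt, cnt]
  congr 1
  ext x
  simp [h x]

/-- Reduction of both coordinates modulo `n`. -/
def md (n : ℕ) (x : GaussianInt) : GaussianInt := ⟨x.re % (n : ℤ), x.im % (n : ℤ)⟩

theorem md_mem {n : ℕ} (hn : 0 < n) (x : GaussianInt) : md n x ∈ box n := by
  have h : (n : ℤ) ≠ 0 := by omega
  have hpos : (0 : ℤ) < n := by omega
  rw [mem_box]
  exact ⟨⟨Int.emod_nonneg _ h, Int.emod_lt_of_pos _ hpos⟩,
    Int.emod_nonneg _ h, Int.emod_lt_of_pos _ hpos⟩

theorem md_spec (n : ℕ) (x : GaussianInt) : ∃ y, md n x = x + (n : GaussianInt) * y := by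
  refine ⟨⟨-(x.re / n), -(x.im / n)⟩, ?_⟩
  apply Zsqrtd.ext
  · simp [md, Int.emod_def]; ring
  · simp [md, Int.emod_def]; ring

theorem md_of_mem {n : ℕ} {x : GaussianInt} (h : x ∈ box n) : md n x = x := by
  rw [mem_box] at h
  exact Zsqrtd.ext (Int.emod_eq_of_lt h.1.1 h.1.2) (Int.emod_eq_of_lt h.2.1 h.2.2)

theorem md_add_mul (n : ℕ) (x y : GaussianInt) : md n (x + (n : GaussianInt) * y) = md n x := by
  apply Zsqrtd.ext <;> simp [md]

theorem md_eq_iff {n : ℕ} {a b : GaussianInt} : md n a = md n b ↔ (n : GaussianInt) ∣ a - b := by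
  rw [← Int.cast_natCast (R := GaussianInt) n, Zsqrtd.intCast_dvd, Zsqrtd.ext_iff]
  simp only [md, Zsqrtd.re_sub, Zsqrtd.im_sub, Int.emod_eq_emod_iff_emod_sub_eq_zero,
    Int.dvd_iff_emod_eq_zero]

theorem Per.md {n : ℕ} {P : GaussianInt → Prop} (h : Per n P) (x : GaussianInt) :
    P (Moat.md n x) ↔ P x := by
  obtain ⟨y, hy⟩ := md_spec n x
  rw [hy]; exact h x y

theorem cnt_trans {n : ℕ} (hn : 0 < n) {P : GaussianInt → Prop} (h : Per n P) (c : GaussianInt) :
    cnt n (fun x => P (x + c)) = cnt n P := by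
  refine Finset.card_nbij' (fun x => md n (x + c)) (fun x => md n (x - c)) ?_ ?_ ?_ ?_
  · intro x hx
    simp only [Finset.coe_filter, Set.mem_ofPred_eq] at hx ⊢
    exact ⟨md_mem hn _, (h.md _).2 hx.2⟩
  · intro x hx
    simp only [Finset.coe_filter, Set.mem_ofPred_eq] at hx ⊢
    refine ⟨md_mem hn _, ?_⟩
    obtain ⟨y, hy⟩ := md_spec n (x - c)
    rw [hy, show x - c + (n : GaussianInt) * y + c = x + n * y by ring]
    exact (h x y).2 hx.2
  · intro x hx
    simp only [Finset.coe_filter, Set.mem_ofPred_eq] at hx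
    obtain ⟨y, hy⟩ := md_spec n (x + c)
    show md n (md n (x + c) - c) = x
    rw [hy, show x + c + (n : GaussianInt) * y - c = x + n * y by ring, md_add_mul, md_of_mem hx.1]
  · intro x hx
    simp only [Finset.coe_filter, Set.mem_ofPred_eq] at hx
    obtain ⟨y, hy⟩ := md_spec n (x - c)
    show md n (md n (x - c) + c) = x
    rw [hy, show x - c + (n : GaussianInt) * y + c = x + n * y by ring, md_add_mul, md_of_mem hx.1]

theorem cnt_mul {n : ℕ} (hn : 0 < n) {P : GaussianInt → Prop} (h : Per n P) (q : ℕ) :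
    cnt (q * n) P = q * q * cnt n P := by
  rw [cnt, cnt, ← card_box q, ← Finset.card_product]
  symm
  refine Finset.card_bij (fun p _ => p.2 + (n : GaussianInt) * p.1) ?_ ?_ ?_
  · intro p hp
    rw [Finset.mem_product, Finset.mem_filter, mem_box, mem_box] at hp
    rw [Finset.mem_filter, mem_box]
    obtain ⟨⟨⟨a1, a2⟩, a3, a4⟩, ⟨⟨b1, b2⟩, b3, b4⟩, hP⟩ := hp
    refine ⟨?_, (h _ _).2 hP⟩
    simp only [Zsqrtd.re_add, Zsqrtd.im_add, Zsqrtd.re_mul, Zsqrtd.im_mul, Zsqrtd.re_natCast,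
      Zsqrtd.im_natCast, mul_zero, zero_mul, add_zero]
    push_cast
    refine ⟨⟨by nlinarith, by nlinarith⟩, by nlinarith, by nlinarith⟩
  · intro p hp p' hp' e
    rw [Finset.mem_product, Finset.mem_filter] at hp hp'
    have e2 : p.2 = p'.2 := by
      rw [← md_of_mem hp.2.1, ← md_of_mem hp'.2.1, ← md_add_mul n p.2 p.1, e, md_add_mul]
    refine Prod.ext ?_ e2
    rw [e2] at e
    exact mul_left_cancel₀ (Nat.cast_ne_zero.2 hn.ne') (add_left_cancel e)
  · intro a ha
    rw [Finset.mem_filter, mem_box] at ha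
    obtain ⟨⟨⟨a1, a2⟩, a3, a4⟩, hP⟩ := ha
    have hn' : (0 : ℤ) < n := by omega
    refine ⟨(⟨a.re / n, a.im / n⟩, md n a), ?_, ?_⟩
    · rw [Finset.mem_product, Finset.mem_filter, mem_box]
      push_cast at a2 a4
      exact ⟨⟨⟨Int.ediv_nonneg a1 hn'.le, (Int.ediv_lt_iff_lt_mul hn').2 a2⟩,
        Int.ediv_nonneg a3 hn'.le, (Int.ediv_lt_iff_lt_mul hn').2 a4⟩, md_mem hn a, (h.md a).2 hP⟩
    · apply Zsqrtd.ext <;> simp [md, Int.emod_def]

theorem cnt_mono {M M' : ℕ} (h : M ≤ M') (P : GaussianInt → Prop) : cnt M P ≤ cnt M' P := by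
  refine Finset.card_le_card fun x hx => ?_
  simp only [Finset.mem_filter, mem_box] at hx ⊢
  exact ⟨⟨⟨hx.1.1.1, by omega⟩, hx.1.2.1, by omega⟩, hx.2⟩

theorem cnt_le (n : ℕ) (P : GaussianInt → Prop) : cnt n P ≤ n * n :=
  (Finset.card_filter_le _ _).trans (card_box n).le

theorem cnt_approx {n : ℕ} (hn : 0 < n) {P : GaussianInt → Prop} (h : Per n P) (M : ℕ) :
    |(cnt M P : ℝ) - (M : ℝ) ^ 2 * ((cnt n P : ℝ) / (n : ℝ) ^ 2)| ≤
      2 * M * n + (n : ℝ) ^ 2 := by
  set q := M / n with hq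
  have hn' : (0 : ℝ) < n := by exact_mod_cast hn
  have a1 : q * n ≤ M := Nat.div_mul_le_self M n
  have a2 : M ≤ (q + 1) * n := by
    have := Nat.lt_div_mul_add (a := M) hn
    rw [add_mul, one_mul, hq]; omega
  have c1 := cnt_mono a1 P
  have c2 := cnt_mono a2 P
  rw [cnt_mul hn h] at c1 c2
  have c3 := cnt_le n P
  have d1 : (q : ℝ) * q * cnt n P ≤ cnt M P := by exact_mod_cast c1
  have d2 : (cnt M P : ℝ) ≤ ((q : ℝ) + 1) * (q + 1) * cnt n P := by exact_mod_cast c2
  have d3 : (cnt n P : ℝ) ≤ (n : ℝ) * n := by exact_mod_cast c3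
  have d4 : (q : ℝ) * n ≤ M := by exact_mod_cast a1
  have d5 : (M : ℝ) ≤ ((q : ℝ) + 1) * n := by exact_mod_cast a2
  set d := (cnt n P : ℝ) / (n : ℝ) ^ 2 with hd
  have hd0 : 0 ≤ d := by positivity
  have hd1 : d ≤ 1 := by rw [hd, div_le_one (by positivity)]; nlinarith
  have hc : (cnt n P : ℝ) = d * (n : ℝ) ^ 2 := by rw [hd]; field_simp
  rw [hc] at d1 d2
  have q0 : (0 : ℝ) ≤ q := Nat.cast_nonneg q
  have e1 : ((q : ℝ) * n) ^ 2 ≤ (M : ℝ) ^ 2 := pow_le_pow_left₀ (by positivity) d4 2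
  have e2 : (M : ℝ) ^ 2 ≤ (((q : ℝ) + 1) * n) ^ 2 := pow_le_pow_left₀ (Nat.cast_nonneg M) d5 2
  have e3 := mul_le_mul_of_nonneg_left e1 hd0
  have e4 := mul_le_mul_of_nonneg_left e2 hd0
  have e5 : d * (2 * ((q : ℝ) * n) * n + (n : ℝ) ^ 2) ≤ 2 * ((q : ℝ) * n) * n + (n : ℝ) ^ 2 :=
    mul_le_of_le_one_left (by positivity) hd1
  have e6 : 2 * ((q : ℝ) * n) * n ≤ 2 * M * n := by nlinarith
  rw [abs_le]
  constructor <;> nlinarith

theorem per_dvd {n : ℕ} {d : GaussianInt} (h : d ∣ (n : GaussianInt)) (c : GaussianInt) :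
    Per n (fun x => d ∣ x + c) := by
  intro x y
  have e : x + (n : GaussianInt) * y + c = (x + c) + n * y := by ring
  show d ∣ x + (n : GaussianInt) * y + c ↔ d ∣ x + c
  rw [e]
  exact dvd_add_left (h.mul_right y)

theorem per_dvd' {n : ℕ} {d : GaussianInt} (h : d ∣ (n : GaussianInt)) : Per n (fun x => d ∣ x) := by
  intro x y
  exact dvd_add_left (h.mul_right y)

theorem cnt_dvd_self {d : GaussianInt} (hd : d ≠ 0) : cnt (nrm d) (fun x => d ∣ x) = nrm d := by
  set n := nrm d with hn_def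
  have hn : 0 < n := one_le_nrm hd
  have hnd : (n : GaussianInt) = d * star d := by
    rw [hn_def, nrm, GaussianInt.natCast_natAbs_norm, Zsqrtd.norm_eq_mul_conj]
  have hsd : star d ≠ 0 := by
    intro e; exact hd (by rw [← star_star d, e, star_zero])
  have hp : Per n (fun x => d ∣ x) := per_dvd' ⟨star d, hnd⟩
  have hps : Per n (fun x => star d ∣ x) := per_dvd' ⟨d, by rw [hnd]; ring⟩
  set c := cnt n (fun x => d ∣ x) with hc
  have hBA : ((box n).filter fun x => star d ∣ x).card = c := by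
    refine Finset.card_nbij' (fun x => md n (star x)) (fun x => md n (star x)) ?_ ?_ ?_ ?_
    · intro x hx
      simp only [Finset.coe_filter, Set.mem_ofPred_eq] at hx ⊢
      refine ⟨md_mem hn _, (hp.md _).2 ?_⟩
      obtain ⟨t, ht⟩ := hx.2
      exact ⟨star t, by rw [ht, star_mul, star_star, mul_comm]⟩
    · intro x hx
      simp only [Finset.coe_filter, Set.mem_ofPred_eq] at hx ⊢
      refine ⟨md_mem hn _, (hps.md _).2 ?_⟩
      obtain ⟨t, ht⟩ := hx.2
      exact ⟨star t, by rw [ht, star_mul, mul_comm]⟩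
    · intro x hx
      simp only [Finset.coe_filter, Set.mem_ofPred_eq] at hx
      obtain ⟨y, hy⟩ := md_spec n (star x)
      show md n (star (md n (star x))) = x
      rw [hy, star_add, star_mul, star_natCast, star_star, mul_comm, md_add_mul, md_of_mem hx.1]
    · intro x hx
      simp only [Finset.coe_filter, Set.mem_ofPred_eq] at hx
      obtain ⟨y, hy⟩ := md_spec n (star x)
      show md n (star (md n (star x))) = x
      rw [hy, star_add, star_mul, star_natCast, star_star, mul_comm, md_add_mul, md_of_mem hx.1]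
  have hfib : ∀ b ∈ (box n).filter (fun x => star d ∣ x),
      ((box n).filter fun x => md n (star d * x) = b).card = c := by
    intro b hb
    rw [Finset.mem_filter] at hb
    obtain ⟨t, rfl⟩ := hb.2
    refine Eq.trans ?_ (cnt_trans hn hp (-t))
    rw [cnt]
    congr 1
    ext x
    simp only [Finset.mem_filter, and_congr_right_iff]
    intro _
    rw [← md_of_mem hb.1, md_eq_iff, hnd, ← mul_sub, mul_comm d (star d),
      mul_dvd_mul_iff_left hsd, sub_eq_add_neg]
  have hmaps : ∀ x ∈ box n, md n (star d * x) ∈ (box n).filter (fun x => star d ∣ x) := by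
    intro x _
    exact Finset.mem_filter.2 ⟨md_mem hn _, (hps.md _).2 (dvd_mul_right _ _)⟩
  have h := Finset.card_eq_sum_card_fiberwise hmaps
  rw [Finset.sum_congr rfl hfib, Finset.sum_const, hBA, card_box, smul_eq_mul] at h
  exact (Nat.mul_self_inj.1 h).symm

theorem cnt_dvd {d : GaussianInt} (hd : d ≠ 0) {n : ℕ} (h : nrm d ∣ n) :
    cnt n (fun x => d ∣ x) * nrm d = n * n := by
  obtain ⟨q, rfl⟩ := h
  rw [mul_comm (nrm d) q, cnt_mul (one_le_nrm hd) (per_dvd' (dvd_nrm d)), cnt_dvd_self hd]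
  ring

variable {L : ℕ}

/-- Each prime of `T` divides some member of the tuple at `x`. -/
def PT (g : Fin L → GaussianInt) (T : Finset GaussianInt) (x : GaussianInt) : Prop := ∀ π ∈ T, ∃ i, π ∣ x + g i

theorem per_PT {n : ℕ} {g : Fin L → GaussianInt} {T : Finset GaussianInt}
    (h : ∀ π ∈ T, π ∣ (n : GaussianInt)) : Per n (PT g T) := by
  intro x y
  exact forall₂_congr fun π hπ => exists_congr fun i => per_dvd (h π hπ) (g i) x y

theorem dvd_natCast_of_nrm {π : GaussianInt} {n : ℕ} (h : nrm π ∣ n) : π ∣ (n : GaussianInt) :=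
  (dvd_nrm π).trans (Nat.cast_dvd_cast h)

theorem cnt_PT {n : ℕ} (hn : 0 < n) (g : Fin L → GaussianInt) (T : Finset GaussianInt)
    (hT : ∀ π ∈ T, Prime π) (hna : ∀ a ∈ T, ∀ b ∈ T, a ∣ b → a = b)
    (hdist : ∀ π ∈ T, ∀ i j, i ≠ j → ¬ π ∣ g i - g j) (hdvd : ∀ π ∈ T, nrm π ∣ n) :
    cnt n (PT g T) * ∏ π ∈ T, nrm π = n * n * L ^ T.card := by
  induction T using Finset.induction with
  | empty =>
    have : cnt n (PT g (∅ : Finset GaussianInt)) = n * n := by
      rw [cnt, Finset.filter_true_of_mem (fun x _ => by simp [PT]), card_box]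
    simp [this]
  | @insert π T hπ ih =>
    have hT' : ∀ ρ ∈ T, Prime ρ := fun ρ h => hT ρ (Finset.mem_insert_of_mem h)
    have ih' := ih hT'
      (fun a ha b hb => hna a (Finset.mem_insert_of_mem ha) b (Finset.mem_insert_of_mem hb))
      (fun ρ h => hdist ρ (Finset.mem_insert_of_mem h))
      (fun ρ h => hdvd ρ (Finset.mem_insert_of_mem h))
    have hp := hT π (Finset.mem_insert_self π T)
    have hπn : π ∣ (n : GaussianInt) := dvd_natCast_of_nrm (hdvd π (Finset.mem_insert_self π T))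
    have hper : Per n (PT g T) := per_PT fun ρ h =>
      dvd_natCast_of_nrm (hdvd ρ (Finset.mem_insert_of_mem h))
    have hperK : ∀ c, Per n (fun x => PT g T x ∧ π ∣ x + c) := fun c x y =>
      and_congr (hper x y) (per_dvd hπn c x y)
    have hK : ∀ c, cnt n (fun x => PT g T x ∧ π ∣ x + c) =
        cnt n (fun x => PT g T x ∧ π ∣ x + 0) := by
      intro c
      have hcop : IsCoprime (∏ ρ ∈ T, ρ) π := IsCoprime.prod_left fun ρ hρ =>
        (hT' ρ hρ).coprime_iff_not_dvd.2 fun h => hπ (by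
          rwa [← hna ρ (Finset.mem_insert_of_mem hρ) π (Finset.mem_insert_self π T) h])
      obtain ⟨a, b, hab⟩ := hcop
      rw [← cnt_trans hn (hperK c) (-(a * (∏ ρ ∈ T, ρ) * c))]
      refine cnt_congr n fun x => and_congr ?_ ?_
      · refine forall₂_congr fun ρ hρ => exists_congr fun i => ?_
        rw [show x + -(a * (∏ ρ ∈ T, ρ) * c) + g i =
          (x + g i) + -(a * (∏ ρ ∈ T, ρ) * c) by ring]
        exact dvd_add_left (dvd_neg.2 (((Finset.dvd_prod_of_mem _ hρ).mul_left a).mul_right c))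
      · rw [show x + -(a * (∏ ρ ∈ T, ρ) * c) + c = (x + 0) + π * (b * c) by
          linear_combination -c * hab]
        exact dvd_add_left (dvd_mul_right _ _)
    have hdouble : n * n * cnt n (fun x => PT g T x ∧ π ∣ x + 0) =
        cnt n (PT g T) * cnt n (fun x => π ∣ x) := by
      have h1 : ∑ y ∈ box n, cnt n (fun x => PT g T x ∧ π ∣ x + y) =
          ∑ x ∈ (box n).filter (PT g T), cnt n (fun y => π ∣ x + y) := by
        simp only [cnt, Finset.card_filter, Finset.sum_filter, ite_and]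
        rw [Finset.sum_comm]
        refine Finset.sum_congr rfl fun x _ => ?_
        split_ifs with hh <;> simp [hh]
      rw [Finset.sum_congr rfl (fun y _ => hK y), Finset.sum_const, card_box, smul_eq_mul] at h1
      rw [h1, Finset.sum_const_nat (m := cnt n (fun x => π ∣ x)) (fun x _ => ?_)]
      · rfl
      · rw [cnt_congr n (Q := fun y => π ∣ y + x) (fun y => by rw [add_comm]),
          cnt_trans hn (per_dvd' hπn)]
    have hA := cnt_dvd hp.ne_zero (hdvd π (Finset.mem_insert_self π T))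
    have hKN : cnt n (fun x => PT g T x ∧ π ∣ x + 0) * nrm π = cnt n (PT g T) := by
      have h2 : n * n * (cnt n (fun x => PT g T x ∧ π ∣ x + 0) * nrm π) =
          n * n * cnt n (PT g T) := by
        rw [← mul_assoc, hdouble, mul_assoc, hA, mul_comm]
      exact Nat.eq_of_mul_eq_mul_left (Nat.mul_pos hn hn) h2
    have hsum : cnt n (PT g (insert π T)) = L * cnt n (fun x => PT g T x ∧ π ∣ x + 0) := by
      have h3 : (box n).filter (PT g (insert π T)) = Finset.univ.biUnion fun i =>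
          (box n).filter fun x => PT g T x ∧ π ∣ x + g i := by
        ext x
        rw [Finset.mem_filter, Finset.mem_biUnion]
        constructor
        · rintro ⟨hx, hPT⟩
          obtain ⟨i, hi⟩ := hPT π (Finset.mem_insert_self π T)
          exact ⟨i, Finset.mem_univ i, Finset.mem_filter.2
            ⟨hx, fun ρ hρ => hPT ρ (Finset.mem_insert_of_mem hρ), hi⟩⟩
        · rintro ⟨i, _, hi⟩
          obtain ⟨hx, hr, hi⟩ := Finset.mem_filter.1 hi
          refine ⟨hx, fun ρ hρ => ?_⟩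
          rcases Finset.mem_insert.1 hρ with rfl | hρ
          · exact ⟨i, hi⟩
          · exact hr ρ hρ
      rw [cnt, h3, Finset.card_biUnion]
      · have hK2 : ∀ i : Fin L, ((box n).filter fun x => PT g T x ∧ π ∣ x + g i).card =
            cnt n (fun x => PT g T x ∧ π ∣ x + 0) := fun i => by
          refine Eq.trans ?_ (hK (g i))
          unfold cnt
          congr
        rw [Finset.sum_congr rfl (fun i _ => hK2 i), Finset.sum_const, Finset.card_univ,
          Fintype.card_fin, smul_eq_mul]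
      · intro i _ j _ hij
        simp only [Function.onFun, Finset.disjoint_left, Finset.mem_filter]
        rintro x ⟨_, _, h1⟩ ⟨_, _, h2⟩
        refine hdist π (Finset.mem_insert_self π T) i j hij ?_
        have h := dvd_sub h1 h2
        rwa [add_sub_add_left_eq_sub] at h
    rw [hsum, Finset.prod_insert hπ, Finset.card_insert_of_notMem hπ, pow_succ]
    calc _ = L * ((cnt n (fun x => PT g T x ∧ π ∣ x + 0) * nrm π) * ∏ ρ ∈ T, nrm ρ) := by ring
      _ = L * (cnt n (PT g T) * ∏ ρ ∈ T, nrm ρ) := by rw [hKN]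
      _ = _ := by rw [ih']; ring

theorem alt_sum (b m : ℕ) :
    ∑ j ∈ Finset.range (m + 1), (-1 : ℝ) ^ j * (b + 1).choose j = (-1) ^ m * b.choose m := by
  induction m with
  | zero => simp
  | succ m ih =>
    rw [Finset.sum_range_succ, ih, Nat.choose_succ_succ]
    push_cast
    ring

theorem brun_pointwise (B : Finset GaussianInt) (r : ℕ) :
    (if B = ∅ then (1 : ℝ) else 0) ≤
      ∑ T ∈ B.powerset with T.card ≤ 2 * r, (-1 : ℝ) ^ T.card := by
  rw [Finset.sum_filter, Finset.sum_powerset_apply_card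
    (fun j => if j ≤ 2 * r then (-1 : ℝ) ^ j else 0)]
  have e : ∑ j ∈ Finset.range (B.card + 1),
      B.card.choose j • (if j ≤ 2 * r then (-1 : ℝ) ^ j else 0) =
      ∑ j ∈ Finset.range (2 * r + 1), (-1 : ℝ) ^ j * B.card.choose j := by
    set N := B.card + 2 * r + 1 with hN
    have h1 : (Finset.range N).filter (fun j => j ≤ 2 * r) = Finset.range (2 * r + 1) := by
      ext j; simp only [Finset.mem_filter, Finset.mem_range]; omega
    rw [← h1, Finset.sum_filter, Finset.sum_subset (Finset.range_subset_range.2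
      (show B.card + 1 ≤ N by omega))]
    · refine Finset.sum_congr rfl fun j _ => ?_
      rw [nsmul_eq_mul]
      split_ifs <;> ring
    · intro j _ hj
      rw [Finset.mem_range, not_lt] at hj
      rw [Nat.choose_eq_zero_of_lt (by omega), zero_nsmul]
  rw [e]
  rcases Nat.eq_zero_or_pos B.card with h | h
  · rw [h, if_pos (Finset.card_eq_zero.1 h), Finset.sum_eq_single 0]
    · simp
    · intro j _ hj; simp [Nat.choose_eq_zero_of_lt (Nat.pos_of_ne_zero hj)]
    · simp
  · rw [if_neg (Finset.card_pos.1 h).ne_empty, show B.card = B.card - 1 + 1 by omega, alt_sum,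
      pow_mul]
    norm_num

theorem card_small_subsets (P : Finset GaussianInt) (m : ℕ) :
    (P.powerset.filter fun T => T.card ≤ m).card ≤ (m + 1) * (P.card + 1) ^ m := by
  have h : P.powerset.filter (fun T => T.card ≤ m) =
      (Finset.range (m + 1)).biUnion fun k => P.powersetCard k := by
    ext T
    simp only [Finset.mem_filter, Finset.mem_powerset, Finset.mem_biUnion, Finset.mem_range,
      Finset.mem_powersetCard]
    constructor
    · rintro ⟨h1, h2⟩; exact ⟨T.card, by omega, h1, rfl⟩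
    · rintro ⟨k, hk, h1, h2⟩; exact ⟨h1, by omega⟩
  rw [h]
  refine Finset.card_biUnion_le.trans ?_
  have : ∀ k ∈ Finset.range (m + 1), (P.powersetCard k).card ≤ (P.card + 1) ^ m := by
    intro k hk
    rw [Finset.card_powersetCard]
    rw [Finset.mem_range] at hk
    calc P.card.choose k ≤ P.card ^ k := Nat.choose_le_pow _ _
      _ ≤ (P.card + 1) ^ k := Nat.pow_le_pow_left (by omega) k
      _ ≤ (P.card + 1) ^ m := Nat.pow_le_pow_right (by omega) (by omega)
  refine (Finset.sum_le_card_nsmul _ _ _ this).trans ?_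
  simp

/-- Upper bound sieve for the translates of a tuple in a box. -/
theorem sieve (g : Fin L → GaussianInt) (P : Finset GaussianInt) (r z M : ℕ)
    (hP : ∀ π ∈ P, Prime π) (hna : ∀ a ∈ P, ∀ b ∈ P, a ∣ b → a = b)
    (hdist : ∀ π ∈ P, ∀ i j, i ≠ j → ¬ π ∣ g i - g j)
    (hz : ∀ π ∈ P, nrm π ≤ z) (hz1 : 1 ≤ z) (hL : ∀ π ∈ P, L ≤ nrm π) :
    (cnt M (fun x => ∀ π ∈ P, ∀ i, ¬ π ∣ x + g i) : ℝ) ≤
      (M : ℝ) ^ 2 * (Real.exp (-∑ π ∈ P, (L : ℝ) / nrm π) +
        Real.exp (2 * ∑ π ∈ P, (L : ℝ) / nrm π) / 4 ^ r) +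
      (2 * r + 1) * ((P.card : ℝ) + 1) ^ (2 * r) *
        (2 * M * (z : ℝ) ^ (2 * r) + ((z : ℝ) ^ (2 * r)) ^ 2) := by
  set S2 := P.powerset.filter fun T => T.card ≤ 2 * r with hS2
  set a : GaussianInt → ℝ := fun π => (L : ℝ) / nrm π with ha
  have ha0 : ∀ π ∈ P, 0 ≤ a π := fun π _ => by positivity
  have ha1 : ∀ π ∈ P, a π ≤ 1 := fun π hπ => by
    rw [ha, div_le_one (by exact_mod_cast one_le_nrm (hP π hπ).ne_zero)]
    exact_mod_cast hL π hπ
  have hstep : (cnt M (fun x => ∀ π ∈ P, ∀ i, ¬ π ∣ x + g i) : ℝ) ≤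
      ∑ T ∈ S2, (-1 : ℝ) ^ T.card * cnt M (PT g T) := by
    have e : ∀ T ∈ S2, (-1 : ℝ) ^ T.card * cnt M (PT g T) =
        ∑ x ∈ box M, if PT g T x then (-1 : ℝ) ^ T.card else 0 := by
      intro T _
      rw [← Finset.sum_filter, Finset.sum_const, nsmul_eq_mul, mul_comm]; rfl
    rw [Finset.sum_congr rfl e, Finset.sum_comm, cnt, Finset.natCast_card_filter]
    refine Finset.sum_le_sum fun x _ => ?_
    set B := P.filter fun π => ∃ i, π ∣ x + g i with hB
    have h1 : S2.filter (fun T => PT g T x) = B.powerset.filter fun T => T.card ≤ 2 * r := by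
      ext T
      simp only [hS2, Finset.mem_filter, Finset.mem_powerset, hB, PT, Finset.subset_iff]
      constructor
      · rintro ⟨⟨h1, h2⟩, h3⟩; exact ⟨fun π hπ => ⟨h1 hπ, h3 π hπ⟩, h2⟩
      · rintro ⟨h1, h2⟩; exact ⟨⟨fun π hπ => (h1 hπ).1, h2⟩, fun π hπ => (h1 hπ).2⟩
    rw [← Finset.sum_filter, h1]
    refine le_trans (le_of_eq ?_) (brun_pointwise B r)
    have hiff : (∀ π ∈ P, ∀ i, ¬ π ∣ x + g i) ↔ B = ∅ := by
      rw [hB, Finset.filter_eq_empty_iff]
      simp only [not_exists]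
    split_ifs with h2 h3 h3
    · rfl
    · exact absurd (hiff.1 h2) h3
    · exact absurd (hiff.2 h3) h2
    · rfl
  have happ : ∀ T ∈ S2, |(cnt M (PT g T) : ℝ) - (M : ℝ) ^ 2 * ∏ π ∈ T, a π| ≤
      2 * M * (z : ℝ) ^ (2 * r) + ((z : ℝ) ^ (2 * r)) ^ 2 := by
    intro T hT
    rw [hS2, Finset.mem_filter, Finset.mem_powerset] at hT
    obtain ⟨hsub, hcard⟩ := hT
    set n := ∏ π ∈ T, nrm π with hn
    have hn0 : 0 < n := Finset.prod_pos fun π hπ => one_le_nrm (hP π (hsub hπ)).ne_zero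
    have hdvd : ∀ π ∈ T, nrm π ∣ n := fun π hπ => Finset.dvd_prod_of_mem _ hπ
    have h := cnt_approx hn0
      (per_PT (g := g) fun π hπ => dvd_natCast_of_nrm (hdvd π hπ)) M
    have hc := cnt_PT hn0 g T (fun π hπ => hP π (hsub hπ))
      (fun u hu v hv => hna u (hsub hu) v (hsub hv)) (fun π hπ => hdist π (hsub hπ)) hdvd
    rw [← hn] at hc
    have hn' : (n : ℝ) ≠ 0 := by exact_mod_cast hn0.ne'
    have hd : (cnt n (PT g T) : ℝ) / (n : ℝ) ^ 2 = ∏ π ∈ T, a π := by
      rw [ha, Finset.prod_div_distrib, Finset.prod_const, ← Nat.cast_prod, ← hn]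
      have hc' : (cnt n (PT g T) : ℝ) * n = (n : ℝ) * n * (L : ℝ) ^ T.card := by exact_mod_cast hc
      have hc'' : (cnt n (PT g T) : ℝ) = (n : ℝ) * (L : ℝ) ^ T.card :=
        mul_right_cancel₀ hn' (by rw [hc']; ring)
      rw [hc'']
      field_simp
    rw [hd] at h
    refine h.trans ?_
    have hnz : (n : ℝ) ≤ (z : ℝ) ^ (2 * r) := by
      have : n ≤ z ^ (2 * r) := by
        calc n ≤ ∏ _π ∈ T, z := Finset.prod_le_prod' fun π hπ => hz π (hsub hπ)
          _ = z ^ T.card := Finset.prod_const _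
          _ ≤ z ^ (2 * r) := Nat.pow_le_pow_right hz1 hcard
      exact_mod_cast this
    refine add_le_add ?_ (pow_le_pow_left₀ (Nat.cast_nonneg n) hnz 2)
    exact mul_le_mul_of_nonneg_left hnz (by positivity)
  have hmain : ∑ T ∈ S2, (-1 : ℝ) ^ T.card * ∏ π ∈ T, a π ≤
      Real.exp (-∑ π ∈ P, a π) + Real.exp (2 * ∑ π ∈ P, a π) / 4 ^ r := by
    have hall : ∑ T ∈ P.powerset, (-1 : ℝ) ^ T.card * ∏ π ∈ T, a π = ∏ π ∈ P, (1 - a π) := by
      simp only [sub_eq_add_neg]
      rw [Finset.prod_one_add]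
      refine Finset.sum_congr rfl fun T _ => ?_
      rw [Finset.prod_neg]
    have hb : ∏ π ∈ P, (1 - a π) ≤ Real.exp (-∑ π ∈ P, a π) := by
      rw [← Finset.sum_neg_distrib, Real.exp_sum]
      refine Finset.prod_le_prod (fun π hπ => by linarith [ha1 π hπ]) fun π _ => ?_
      linarith [Real.add_one_le_exp (-a π)]
    have hrest : |∑ T ∈ P.powerset.filter (fun T => ¬ T.card ≤ 2 * r),
        (-1 : ℝ) ^ T.card * ∏ π ∈ T, a π| ≤ Real.exp (2 * ∑ π ∈ P, a π) / 4 ^ r := by
      refine (Finset.abs_sum_le_sum_abs _ _).trans ?_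
      calc _ ≤ ∑ T ∈ P.powerset.filter (fun T => ¬ T.card ≤ 2 * r),
            (∏ π ∈ T, (2 * a π)) / 4 ^ r := by
            refine Finset.sum_le_sum fun T hT => ?_
            rw [Finset.mem_filter, Finset.mem_powerset, not_le] at hT
            have h0 : 0 ≤ ∏ π ∈ T, a π := Finset.prod_nonneg fun π hπ => ha0 π (hT.1 hπ)
            rw [abs_mul, abs_pow, abs_neg, abs_one, one_pow, one_mul, abs_of_nonneg h0,
              Finset.prod_mul_distrib, Finset.prod_const, le_div_iff₀ (by positivity),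
              mul_comm ((2 : ℝ) ^ T.card)]
            refine mul_le_mul_of_nonneg_left ?_ h0
            rw [show (4 : ℝ) = 2 ^ 2 by norm_num, ← pow_mul]
            exact pow_le_pow_right₀ (by norm_num) hT.2.le
        _ ≤ ∑ T ∈ P.powerset, (∏ π ∈ T, (2 * a π)) / 4 ^ r := by
            refine Finset.sum_le_sum_of_subset_of_nonneg (Finset.filter_subset _ _)
              fun T hT _ => div_nonneg (Finset.prod_nonneg fun π hπ => ?_) (by positivity)
            linarith [ha0 π (Finset.mem_powerset.1 hT hπ)]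
        _ ≤ _ := by
            rw [← Finset.sum_div, ← Finset.prod_one_add, Finset.mul_sum, Real.exp_sum]
            refine div_le_div_of_nonneg_right ?_ (by positivity)
            refine Finset.prod_le_prod (fun π hπ => by linarith [ha0 π hπ]) fun π _ => ?_
            linarith [Real.add_one_le_exp (2 * a π)]
    rw [← Finset.sum_filter_add_sum_filter_not P.powerset (fun T => T.card ≤ 2 * r)] at hall
    have := abs_le.1 hrest
    rw [← hS2] at hall
    linarith
  have herr : ∑ T ∈ S2, (-1 : ℝ) ^ T.card * cnt M (PT g T) ≤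
      (M : ℝ) ^ 2 * ∑ T ∈ S2, (-1 : ℝ) ^ T.card * ∏ π ∈ T, a π +
        (S2.card : ℝ) * (2 * M * (z : ℝ) ^ (2 * r) + ((z : ℝ) ^ (2 * r)) ^ 2) := by
    rw [Finset.mul_sum, ← nsmul_eq_mul, ← Finset.sum_const, ← Finset.sum_add_distrib]
    refine Finset.sum_le_sum fun T hT => ?_
    have h := abs_le.1 (happ T hT)
    rcases neg_one_pow_eq_or ℝ T.card with e | e <;> rw [e] <;> linarith
  refine hstep.trans (herr.trans (add_le_add (mul_le_mul_of_nonneg_left hmain (by positivity)) ?_))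
  refine mul_le_mul_of_nonneg_right ?_ (by positivity)
  exact_mod_cast card_small_subsets P (2 * r)

end Vale.Agent.P015.Moat
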